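import Vale.Agent.P141.H444.TopP
import Vale.Agent.P141.PL.H855.StepDefs
import Vale.Agent.P141.PL.H855.Dig
import Vale.Agent.P141.H297.Win7
import Vale.Agent.P141.H935.WinSum

/-!
# P141, line W, module PROC (S6): from the bounds on the windows to the step

* `rgn_blw`, `TR_win_le`, `TR_blw_le`: the windows below one root cell;
* `nvF`, `sum_nd_le`: the nodes of one datum; bounds on the windows give a bound for the sum over
  the nodes (two root cells);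
* `paths_step`: the joint paths of one step (old / new level) × (slot);
* `stepB2_of_windows`: the step `StepB2` from the bounds on the windows.
-/

namespace Vale.Agent.P141.H379

open Finset Function
open Vale.Agent.P141.H315 (Grid dot)
open Vale.Agent.P141.PL.H315 (le)
open Vale.Agent.P141.PL.H314 (nd Win)
open Vale.Agent.P141.PL.H571 (W)
open Vale.Agent.P141.PL.H318 (CSys T)
open Vale.Agent.P141.PL.H95 (gr gr_cube mem_gr card_gr W_sub mem_W shf rst)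
open Vale.Agent.P141.PL.H855 (wN N4 TR n4T TR_split TR_mono TR_nonneg TR_region_congr cd_gr
  cd_gr_succ)
open Vale.Agent.P141.H347 (LW Pth pV pH pR pM cd Dat2)
open Vale.Agent.P141.H782 (rl ty Typ typ_ty Fre gb used used_congr hyp_used le_mem_W LSys LSys.S
  LSys.w lp pth_lp frN mem_frN BadC)
open Vale.Agent.P141.H8 (Rgn Lab Wr tops lab_tp)
open Vale.Agent.P141.H297 (Paths Mix tp ind packing cd_pos)
open Vale.Agent.P141.H444 (used_of_mem2 FirstB2 StepB2)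

noncomputable section

open scoped Classical

/-! ### The windows below one root cell -/

section windows

variable {X α : Type*} {g : Grid X} {gd ud : ℕ → X → Prop} {L : ℕ} {x : X} {tp : ℕ → X → ℕ}

/-- the region below the cell `(L, x)` -/
def blw (g : Grid X) (gd : ℕ → X → Prop) (L : ℕ) (x : X) : ℕ → X → Prop :=
  fun k y => gd k y ∧ k ≤ L ∧ y ∈ g.cube L x

theorem rgn_blw (hc : ∀ k x y, y ∈ g.cube k x → (gd k y ↔ gd k x))
    (hup : ∀ k < L, ∀ x, gd k x → gd (k + 1) x) (x : X) : Rgn g gd L x (blw g gd L x) where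
  const k y z hz := by
    unfold blw
    constructor
    · rintro ⟨h1, h2, h3⟩
      refine ⟨(hc k y z hz).1 h1, h2, ?_⟩
      have h5 : y ∈ g.cube k z := by rw [g.eq_of_mem k y z hz]; exact g.mem k y
      exact g.cube_subset h2 h3 h5
    · rintro ⟨h1, h2, h3⟩
      exact ⟨(hc k y z hz).2 h1, h2, g.cube_subset h2 h3 hz⟩
  up k hk y := by
    rintro ⟨h1, _, h3⟩
    exact ⟨hup k hk y h1, hk, h3⟩
  bel k y h := h.2
  sub k y h := h.1

theorem wr_blw {Λ : ℕ} (hΛ : Λ ≤ L) {z : X} (hz : z ∈ g.cube L x) (k : ℕ) (y : X) :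
    Wr g (blw g gd L x) tp Λ z k y ↔ Wr g gd tp Λ z k y := by
  unfold Wr blw
  constructor
  · rintro ⟨⟨h1, _, _⟩, h4, h5, h6⟩
    exact ⟨h1, h4, h5, h6⟩
  · rintro ⟨h1, h4, h5, h6⟩
    exact ⟨⟨h1, h4.trans hΛ, g.cube_subset hΛ hz h5⟩, h4, h5, h6⟩

theorem tops_blw (L' : ℕ) (x' : X) : tops g (blw g gd L x) tp L' x' ≤ tops g gd tp L' x' := by
  unfold tops
  refine sum_le_sum fun i _ => sum_le_sum fun z _ => ?_
  by_cases h : blw g gd L x i z ∧ tp i z = i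
  · rw [if_pos h, if_pos ⟨h.1.1, h.2⟩]
  · rw [if_neg h]
    split_ifs <;> norm_num

/-- the total of a region, window by window -/
theorem TR_win (nv : N4 g α) (h : Rgn g gd L x ud) (hl : Lab g L tp) (A : Fin 4 → ℕ → X → ℝ) :
    TR nv ud A = ∑ i ∈ range (L + 1), ∑ z ∈ g.cube L x, (if ud i z ∧ tp i z = i then
      (cd g i z)⁻¹ * TR nv (Wr g ud tp i z) A else 0) :=
  Vale.Agent.P141.H935.sum_items h hl nv.nd nv.sc nv.pt _

theorem TR_win_le (nv : N4 g α) (h : Rgn g gd L x ud) (hl : Lab g L tp)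
    (A : Fin 4 → ℕ → X → ℝ) {a : ℝ}
    (H : ∀ i ≤ L, ∀ z ∈ g.cube L x, ud i z → tp i z = i →
      TR nv (Wr g ud tp i z) A ≤ a * cd g i z) :
    TR nv ud A ≤ a * tops g ud tp L x := by
  rw [TR_win nv h hl A]
  unfold tops
  rw [mul_sum]
  refine sum_le_sum fun i hi => ?_
  rw [mul_sum]
  refine sum_le_sum fun z hz => ?_
  split_ifs with h1
  · have hc := cd_pos g i z
    have h2 := mul_le_mul_of_nonneg_left
      (H i (by have := mem_range.1 hi; omega) z hz h1.1 h1.2) (inv_pos.2 hc).le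
    refine h2.trans (le_of_eq ?_)
    field_simp
  · simp

/-- the total of the nodes below one cell -/
theorem TR_blw_le (nv : N4 g α) (hc : ∀ k x y, y ∈ g.cube k x → (gd k y ↔ gd k x))
    (hup : ∀ k < L, ∀ x, gd k x → gd (k + 1) x) (hl : Lab g L tp) {κ a : ℝ} (ha : 0 ≤ a)
    (hκ : 0 ≤ κ) (hpack : ∀ x, gd L x → tops g gd tp L x ≤ κ * cd g L x)
    (A : Fin 4 → ℕ → X → ℝ)
    (H : ∀ Λ ≤ L, ∀ z, gd Λ z → tp Λ z = Λ → TR nv (Wr g gd tp Λ z) A ≤ a * cd g Λ z) (x : X) :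
    TR nv (blw g gd L x) A ≤ a * κ * cd g L x := by
  have hr := rgn_blw hc hup x
  have h1 : TR nv (blw g gd L x) A ≤ a * tops g (blw g gd L x) tp L x := by
    refine TR_win_le nv hr hl A fun i hi z hz hu ht => ?_
    rw [TR_region_congr (wr_blw hi hz)]
    exact H i hi z hu.1 ht
  have h2 : tops g (blw g gd L x) tp L x ≤ κ * cd g L x := by
    by_cases hx : gd L x
    · exact (tops_blw L x).trans (hpack x hx)
    · have h3 : tops g (blw g gd L x) tp L x = 0 := by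
        unfold tops
        refine sum_eq_zero fun i hi => sum_eq_zero fun z hz => if_neg fun h => hx ?_
        have h4 := hr.up' (Nat.lt_succ_iff.1 (mem_range.1 hi)) le_rfl h.1
        exact (hc L x z hz).1 h4.1
      rw [h3]
      exact mul_nonneg hκ (cd_pos g L x).le
  calc TR nv (blw g gd L x) A ≤ a * tops g (blw g gd L x) tp L x := h1
    _ ≤ a * (κ * cd g L x) := mul_le_mul_of_nonneg_left h2 ha
    _ = _ := by ring

end windows

/-! ### The nodes of one datum -/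

section nodes

variable {n : ℕ} {f : Fin 4 → ℤ → ℝ} {o : ℤ} {K : ℕ} {V : ℤ} {𝒩 : Finset (ℕ × ℤ)}

theorem sub_frN (hd : Dat2 n f o K V 𝒩) {b : Bool} {𝒞 : Finset (ℕ × ℤ)} :
    ∀ N ∈ frN n b 𝒩 𝒞, W N.1 N.2 ⊆ (gr 7 (shf (n + 7) b)).cube N.1 (le N) := by
  intro N hN
  obtain ⟨h1, h2, _⟩ := mem_frN.1 hN
  have h3 := typ_ty (n := n) (N := N) ((hd.root N h1).2.1.trans hd.hK)
  rw [h2] at h3
  exact h3

/-- the nodes of one datum -/
def nvF (hd : Dat2 n f o K V 𝒩) (b : Bool) (𝒞 : Finset (ℕ × ℤ)) : N4 (gb n b) (ℕ × ℤ) :=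
  n4T (shf (n + 7) b) hd.ho (frN n b 𝒩 𝒞) le (sub_frN hd)

theorem TR_nvF (hd : Dat2 n f o K V 𝒩) (b : Bool) (𝒞 : Finset (ℕ × ℤ)) {gd : ℕ → ℤ → Prop}
    (hN : ∀ N ∈ frN n b 𝒩 𝒞, gd N.1 (le N)) (A : Fin 4 → ℕ → ℤ → ℝ) :
    TR (nvF hd b 𝒞) gd A = ∑ N ∈ frN n b 𝒩 𝒞, |nd o N.1 N.2 (fun m => A m N.1)| := by
  unfold TR nvF n4T
  refine sum_congr rfl fun N h => ?_
  show (if gd N.1 (le N) then |if N ∈ frN n b 𝒩 𝒞 then wN o (fun j => A j N.1) N else 0|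
    else 0) = _
  rw [if_pos (hN N h), if_pos h]
  rfl

/-- two points of the window of the root -/
def xr (K : ℕ) (V : ℤ) (c : Bool) : ℤ := if c then 2 ^ K * (V + 16) - 1 else 2 ^ K * (V - 16)

/-- every point of the window of the root lies in one of two root cells -/
theorem mem_root {s : ℤ} {K : ℕ} {V y : ℤ} (hy : y ∈ W K V) :
    ∃ c : Bool, y ∈ (gr 7 s).cube K (xr K V c) := by
  rw [mem_W] at hy
  have h2 : (0 : ℤ) < 2 ^ (K + 7) := by positivity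
  have hk : (0 : ℤ) < 2 ^ K := by positivity
  have e0 := Int.ediv_le_ediv h2 (show 2 ^ K * (V - 16) + s ≤ y + s by linarith [hy.1])
  have e1 := Int.ediv_le_ediv h2 (show y + s ≤ 2 ^ K * (V + 16) - 1 + s by linarith [hy.2])
  have e2 : (2 ^ K * (V + 16) - 1 + s) / 2 ^ (K + 7) ≤
      (2 ^ K * (V - 16) + s) / 2 ^ (K + 7) + 1 := by
    have h3 : 2 ^ K * (V + 16) - 1 + s ≤ 2 ^ K * (V - 16) + s + 1 * 2 ^ (K + 7) := by
      rw [pow_add]; nlinarith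
    refine (Int.ediv_le_ediv h2 h3).trans (le_of_eq ?_)
    rw [Int.add_mul_ediv_right _ _ h2.ne']
  rcases (show (y + s) / 2 ^ (K + 7) = (2 ^ K * (V - 16) + s) / 2 ^ (K + 7) ∨
      (y + s) / 2 ^ (K + 7) = (2 ^ K * (V + 16) - 1 + s) / 2 ^ (K + 7) by omega) with h | h
  · refine ⟨false, ?_⟩
    rw [mem_gr]
    exact h
  · refine ⟨true, ?_⟩
    rw [mem_gr]
    exact h

/-- **The sum over the nodes from the bounds on the windows.** -/
theorem sum_nd_le (hd : Dat2 n f o K V 𝒩) (b : Bool) (𝒞 : Finset (ℕ × ℤ)) {gd : ℕ → ℤ → Prop}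
    (hc : ∀ k x y, y ∈ (gb n b).cube k x → (gd k y ↔ gd k x))
    (hup : ∀ k < K, ∀ x, gd k x → gd (k + 1) x)
    (hN : ∀ N ∈ frN n b 𝒩 𝒞, gd N.1 (le N)) {tp : ℕ → ℤ → ℕ} (hl : Lab (gb n b) K tp)
    {κ a : ℝ} (ha : 0 ≤ a) (hκ : 0 ≤ κ)
    (hpack : ∀ x, gd K x → tops (gb n b) gd tp K x ≤ κ * cd (gb n b) K x)
    (A : Fin 4 → ℕ → ℤ → ℝ)
    (H : ∀ Λ ≤ K, ∀ z, gd Λ z → tp Λ z = Λ →
      TR (nvF hd b 𝒞) (Wr (gb n b) gd tp Λ z) A ≤ a * cd (gb n b) Λ z) :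
    ∑ N ∈ frN n b 𝒩 𝒞, |nd o N.1 N.2 (fun m => A m N.1)| ≤ 2 ^ 8 * (a * κ) * 2 ^ K := by
  -- the nodes lie below two root cells
  set gd' : ℕ → ℤ → Prop := fun k y => ∃ c : Bool, blw (gb n b) gd K (xr K V c) k y with hgd'
  have hN' : ∀ N ∈ frN n b 𝒩 𝒞, gd' N.1 (le N) := by
    intro N h
    obtain ⟨h1, _, _⟩ := mem_frN.1 h
    obtain ⟨_, h3, h4⟩ := hd.root N h1
    have h5 : le N ∈ W K V := by
      have := W_sub h3 N.2 (le_mem_W N)
      rwa [h4] at this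
    obtain ⟨c, h6⟩ := mem_root (s := shf (n + 7) b) h5
    exact ⟨c, hN N h, h3, h6⟩
  rw [← TR_nvF hd b 𝒞 hN' A]
  have h1 : TR (nvF hd b 𝒞) gd' A ≤ ∑ c : Bool, TR (nvF hd b 𝒞)
      (blw (gb n b) gd K (xr K V c)) A :=
    TR_split univ _ (fun k y ⟨c, h⟩ => ⟨c, mem_univ _, h⟩) A
  have h2 : ∀ c : Bool, TR (nvF hd b 𝒞) (blw (gb n b) gd K (xr K V c)) A ≤
      a * κ * 2 ^ (K + 7) := by
    intro c
    rw [← cd_gr (shf (n + 7) b) K (xr K V c)]
    exact TR_blw_le (nvF hd b 𝒞) hc hup hl ha hκ hpack A H _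
  refine h1.trans ((sum_le_sum fun c _ => h2 c).trans (le_of_eq ?_))
  rw [sum_const, card_univ, Fintype.card_bool, nsmul_eq_mul, pow_add]
  push_cast
  ring

end nodes

/-! ### The joint paths of one step -/

/-- the index of a path: `false` = old level, `true` = new level; slot -/
abbrev JP : Type := Bool × Fin 4

/-- the level of a path -/
def lv (j : ℕ) (c : JP) : ℕ := if c.1 then j + 1 else j

section paths

variable {n : ℕ} {ι : Type} (𝒮 : LSys n ι) (K : ℕ) (V : ℤ) (f : Fin 4 → ℤ → ℝ) (j : ℕ) (b : Bool)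

/-- the system of a path -/
def SJ (c : JP) : CSys (gb n b) ι := 𝒮.S (lv j c) b c.2

/-- the local weights of a path -/
def wJ (c : JP) : LW (SJ 𝒮 j b c) := 𝒮.w (lv j c) b c.2

/-- the static function of a path -/
def FJ (c : JP) : ℤ → ℝ := rst K V (f c.2)

/-- the residuals -/
def VJ (c : JP) : ℕ → ℤ → ℝ := lp 𝒮 K V f (lv j c) b c.2

/-- the functions before the births -/
def HJ (c : JP) : ℕ → ℤ → ℝ :=
  pH (wJ 𝒮 j b c) K 4 (FJ K V f c) (used n K V f b)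

/-- the restarts -/
def rJ (c : JP) : ℕ → ℤ → Prop :=
  pR (wJ 𝒮 j b c) K 4 (FJ K V f c) (used n K V f b)

/-- the local masses -/
def mJ (c : JP) : ℕ → ℤ → ℝ := fun k =>
  pM (wJ 𝒮 j b c) K 4 (FJ K V f c) (used n K V f b) k k

/-- **The joint paths of one step.** -/
theorem paths_step : Paths (wJ 𝒮 j b) K 4 (FJ K V f) (used n K V f b) (VJ 𝒮 K V f j b)
    (HJ 𝒮 K V f j b) (rJ 𝒮 K V f j b) (mJ 𝒮 K V f j b) where
  path c := pth_lp 𝒮 K V f (lv j c) b c.2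
  gd_const _ _ _ h := used_congr h
  gd_up k _ _ h i := (h i).mono (Nat.le_succ k)

/-- the joint labels of one step -/
def tpJ (e0 C2 : ℝ) : ℕ → ℤ → ℕ :=
  tp (wJ 𝒮 j b) K (used n K V f b) (VJ 𝒮 K V f j b) (HJ 𝒮 K V f j b) (rJ 𝒮 K V f j b) e0 C2

theorem lab_tpJ (e0 C2 : ℝ) : Lab (gb n b) K (tpJ 𝒮 K V f j b e0 C2) :=
  lab_tp (wJ 𝒮 j b) K (used n K V f b) (VJ 𝒮 K V f j b) (HJ 𝒮 K V f j b) (rJ 𝒮 K V f j b) e0 C2

theorem card_JP : (Fintype.card JP : ℝ) = 8 := by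
  rw [Fintype.card_prod, Fintype.card_bool, Fintype.card_fin]
  norm_num

/-- the packing of the joint windows -/
theorem pack_tpJ {Cg : ℝ} (hM : ∀ c, Mix (SJ 𝒮 j b c) Cg) (hC : 0 ≤ Cg) {e0 C2 : ℝ}
    (he0 : 0 < e0) (he1 : e0 ≤ 1) (hC2 : 32 * (1 + 2 * Cg) ≤ C2) {x : ℤ}
    (hx : used n K V f b K x) : tops (gb n b) (used n K V f b) (tpJ 𝒮 K V f j b e0 C2) K x ≤
      2 ^ 14 / e0 * cd (gb n b) K x := by
  have h1 := packing (paths_step 𝒮 K V f j b) hM hC (cd_gr_succ (shf (n + 7) b)) he0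
    (C2 := C2) (by rw [card_JP]; linarith) le_rfl hx
  have h2 : tops (gb n b) (used n K V f b) (tpJ 𝒮 K V f j b e0 C2) K x ≤
      2 * (2 + 2 + 2 * 2 * Fintype.card JP + 64 * 2 * Fintype.card JP * (4 / e0)) *
        cd (gb n b) K x := by
    refine le_trans (le_of_eq ?_) h1
    unfold tops ind tpJ
    exact sum_congr rfl fun i _ => sum_congr rfl fun z _ => by congr
  refine h2.trans (mul_le_mul_of_nonneg_right ?_ (cd_pos _ _ _).le)
  rw [card_JP, le_div_iff₀ he0]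
  have e1 : 4 / e0 * e0 = 4 := div_mul_cancel₀ _ he0.ne'
  nlinarith

/-- the role `i` of the step -/
def rlJ (i : Fin 4) : Fin 4 → ℕ → ℤ → ℝ := fun m k =>
  rl (fun m => lp 𝒮 K V f j b m k) (fun m => lp 𝒮 K V f (j + 1) b m k) i m

/-- old minus new in the slot of the role, new before it, old after it -/
theorem rlJ_upd (i : Fin 4) : rlJ 𝒮 K V f j b i =
    update (fun m => VJ 𝒮 K V f j b (decide (m < i), m)) i
      (VJ 𝒮 K V f j b (false, i) - VJ 𝒮 K V f j b (true, i)) := by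
  funext m
  by_cases h : m = i
  · subst h
    rw [update_self]
    funext k
    unfold rlJ rl VJ lv
    rw [if_neg (lt_irrefl m), if_pos rfl]
    rfl
  · rw [update_of_ne h]
    funext k
    unfold rlJ rl VJ lv
    by_cases h1 : m < i
    · rw [if_pos h1, decide_eq_true h1]
      rfl
    · rw [if_neg h1, if_neg h, decide_eq_false h1]
      rfl

end paths

/-! ### The step -/

section step

variable {n : ℕ} {ι : Type} {𝒮 : LSys n ι} {f : Fin 4 → ℤ → ℝ} {o : ℤ} {K : ℕ} {V : ℤ}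
  {𝒩 : Finset (ℕ × ℤ)}

theorem badC_empty {β : ℝ} (hβ : 0 ≤ β) : BadC K β fun _ => ∅ where
  cell _ c hc := absurd hc (notMem_empty c)
  bad _ := by rw [sum_empty]; positivity

/-- one role -/
theorem role_le (hd : Dat2 n f o K V 𝒩) (j : ℕ) (b : Bool) (𝒞 : Finset (ℕ × ℤ)) {Cg : ℝ}
    (hM : ∀ c, Mix (SJ 𝒮 j b c) Cg) (hC : 0 ≤ Cg) {e0 C2 a : ℝ} (he0 : 0 < e0) (he1 : e0 ≤ 1)
    (hC2 : 32 * (1 + 2 * Cg) ≤ C2) (ha : 0 ≤ a) (A : Fin 4 → ℕ → ℤ → ℝ)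
    (H : ∀ Λ ≤ K, ∀ z, used n K V f b Λ z → tpJ 𝒮 K V f j b e0 C2 Λ z = Λ →
      TR (nvF hd b 𝒞) (Wr (gb n b) (used n K V f b) (tpJ 𝒮 K V f j b e0 C2) Λ z) A ≤
        a * cd (gb n b) Λ z) :
    ∑ N ∈ frN n b 𝒩 𝒞, |nd o N.1 N.2 (fun m => A m N.1)| ≤ 2 ^ 22 * (a / e0) * 2 ^ K := by
  have h := sum_nd_le hd b 𝒞 (gd := used n K V f b) (fun k x y h => used_congr h)
    (fun k _ x h i => (h i).mono (Nat.le_succ k))
    (fun N hN => used_of_mem2 hd (mem_frN.1 hN).1 b (le_mem_W N)) (lab_tpJ 𝒮 K V f j b e0 C2)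
    (κ := 2 ^ 14 / e0) ha (by positivity)
    (fun x hx => pack_tpJ 𝒮 K V f j b hM hC he0 he1 hC2 hx) A H
  refine h.trans (le_of_eq ?_)
  field_simp

/-- **THE STEP from the bounds on the windows.** -/
theorem stepB2_of_windows (hd : Dat2 n f o K V 𝒩) {ρ C E : ℝ} {j : ℕ}
    {𝒞 : Bool → Finset (ℕ × ℤ)} (hCC : BadC K (C * ρ ^ j) 𝒞) {Cg : ℝ}
    (hM : ∀ b c, Mix (SJ 𝒮 j b c) Cg) (hC : 0 ≤ Cg) {e0 C2 a : ℝ} (he0 : 0 < e0)
    (he1 : e0 ≤ 1) (hC2 : 32 * (1 + 2 * Cg) ≤ C2) (ha : 0 ≤ a)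
    (H : ∀ b i, ∀ Λ ≤ K, ∀ z, used n K V f b Λ z → tpJ 𝒮 K V f j b e0 C2 Λ z = Λ →
      TR (nvF hd b (𝒞 b)) (Wr (gb n b) (used n K V f b) (tpJ 𝒮 K V f j b e0 C2) Λ z)
        (rlJ 𝒮 K V f j b i) ≤ a * cd (gb n b) Λ z)
    (hnum : 2 ^ 22 * (a / e0) ≤ C * ρ ^ j * E) : StepB2 𝒮 ρ C j E f o K V 𝒩 := by
  refine ⟨𝒞, hCC, fun b i => ?_⟩
  refine (role_le hd j b (𝒞 b) (hM b) hC he0 he1 hC2 ha (rlJ 𝒮 K V f j b i) (H b i)).trans ?_
  exact mul_le_mul_of_nonneg_right hnum (by positivity)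

end step

end

end Vale.Agent.P141.H379
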