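import Vale.Agent.P141.H379.Top
import Vale.Agent.P141.H444.TopStep
import Vale.Agent.P141.H610.EndNum

/-!
# P141, line W, module PROC (S6'): the steps from one statement about one window

* `WinHyp`: total systems and, for every role and every joint window of every step, the bound
  `C * ρ ^ j * e0 j * (1 + P) * cd` of the total of the nodes of the window;
* `stepHyp_of_winHyp`: `WinHyp` gives `StepHyp` of `H444/TopStep`;
* facts on one window in the letters of `Top`: `mix_J`, `l2w_J`, `box_nvF`, `en_FJ`, `rgn_wr`.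
-/

namespace Vale.Agent.P141.H379

open Finset Function
open Vale.Agent.P141.H315 (Grid dot)
open Vale.Agent.P141.PL.H315 (le)
open Vale.Agent.P141.PL.H571 (W)
open Vale.Agent.P141.PL.H318 (CSys)
open Vale.Agent.P141.PL.H95 (gr shf rst)
open Vale.Agent.P141.PL.H855 (N4 TR n4T L2W)
open Vale.Agent.P141.H347 (LW cd Dat2 Root2)
open Vale.Agent.P141.H782 (gb used used_congr hyp_used LSys LSys.S LSys.w lp frN mem_frN BadC)
open Vale.Agent.P141.H8 (Rgn Lab Wr tops En)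
open Vale.Agent.P141.H297 (Paths Mix tp cd_pos)
open Vale.Agent.P141.H610 (BoxHyp boxHyp_mbbW)
open Vale.Agent.P141.H444 (StepB2 StepHyp TSys TDat TDat.sys TDat.tot TDat.mix_sys TDat.l2W_sys GenL)
open Vale.Agent.P141.H922 (CgP)

noncomputable section

open scoped Classical

/-! ### One window -/

section rgn

variable {X : Type*} {g : Grid X} {gd : ℕ → X → Prop} {L : ℕ} {tp : ℕ → X → ℕ}

/-- the window with the top `(Λ, z)` is a region below `(Λ, z)` -/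
theorem rgn_wr (hc : ∀ k x y, y ∈ g.cube k x → (gd k y ↔ gd k x))
    (hup : ∀ k < L, ∀ x, gd k x → gd (k + 1) x) (hl : Lab g L tp) {Λ : ℕ} (hΛ : Λ ≤ L) (z : X) :
    Rgn g gd Λ z (Wr g gd tp Λ z) := by
  have h := (rgn_blw hc hup z).win hl hΛ z
  have e : Wr g (blw g gd L z) tp Λ z = Wr g gd tp Λ z := by
    funext k y
    exact propext (wr_blw hΛ (g.mem L z) k y)
  rwa [e] at h

theorem wr_top {Λ : ℕ} {z : X} (hu : gd Λ z) (ht : tp Λ z = Λ) : Wr g gd tp Λ z Λ z :=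
  ⟨hu, le_rfl, g.mem Λ z, ht⟩

end rgn

section facts

variable {n : ℕ} {ι : Type} (𝒮 : LSys n ι) (K : ℕ) (V : ℤ) (f : Fin 4 → ℤ → ℝ) (j : ℕ) (b : Bool)

/-- the joint window of one step with the top `(Λ, z)` -/
theorem rgn_J (e0 C2 : ℝ) {Λ : ℕ} (hΛ : Λ ≤ K) (z : ℤ) :
    Rgn (gb n b) (used n K V f b) Λ z
      (Wr (gb n b) (used n K V f b) (tpJ 𝒮 K V f j b e0 C2) Λ z) := by
  refine rgn_wr (g := gb n b) (gd := used n K V f b) (L := K) (tp := tpJ 𝒮 K V f j b e0 C2)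
    ?_ ?_ (lab_tpJ 𝒮 K V f j b e0 C2) hΛ z
  · intro k x y h
    exact used_congr h
  · intro k _ x h i
    exact (h i).mono (Nat.le_succ k)

/-- the local energy of the data on the used cells of scales `≤ K` -/
theorem en_FJ (c : JP) {k : ℕ} (hk : k ≤ K) {y : ℤ} (hy : used n K V f b k y) :
    dot ((gb n b).cube k y) (FJ K V f c) (FJ K V f c) ≤ 4 * cd (gb n b) k y :=
  (hyp_used n K V f b c.2).energy k hk y hy

/-- the local energy of the data on a region of scales `≤ K` -/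
theorem en_FJ' (c : JP) {L : ℕ} (hL : L ≤ K) {x : ℤ} {ud : ℕ → ℤ → Prop}
    (hR : Rgn (gb n b) (used n K V f b) L x ud) : En (gb n b) ud (FJ K V f c) 4 :=
  fun k y hy => en_FJ K V f b c ((hR.bel k y hy).1.trans hL) (hR.sub k y hy)

end facts

section tsys

variable {n : ℕ} {κ : Type} (t : TSys n κ) (j : ℕ) (b : Bool)

/-- mixed inheritance -/
theorem mix_J {Cg : ℝ} (hC : CgP ≤ Cg) (hP : ∀ j b i, (t.P j b i).C ≤ Cg) (c : JP) :
    Mix (SJ t.sys j b c) Cg := t.mix_sys hC (hP _ _ _)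

/-- the `L²` averages of the atoms -/
theorem l2w_J (c : JP) : L2W (wJ t.sys j b c) (2 * t.K (lv j c)) := t.l2W_sys (lv j c) b c.2

end tsys

/-- **The black box** for the nodes of one datum. -/
theorem box_nvF : ∃ C : ℝ, 0 ≤ C ∧ ∀ (n : ℕ) (P : ℝ), 0 ≤ P → Root2 n P →
    ∀ f o K V 𝒩 (hd : Dat2 n f o K V 𝒩) (b : Bool) (𝒞 : Finset (ℕ × ℤ)) (gd : ℕ → ℤ → Prop),
      (∀ k y, gd k y → k ≤ n) → BoxHyp (nvF hd b 𝒞) gd (C * P) := by
  obtain ⟨C, hC, h⟩ := boxHyp_mbbW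
  exact ⟨C, hC, fun n P hP hr f o K V 𝒩 hd b 𝒞 gd hgd =>
    h n P hP hr (shf (n + 7) b) hd.ho (frN n b 𝒩 𝒞) le (sub_frN hd)
      (fun N hN => (hd.root N (mem_frN.1 hN).1).1) gd hgd⟩

/-! ### The steps -/

/-- **What remains: one window.** -/
def WinHyp : Prop := ∃ (ρ C Cg : ℝ) (D Kf cg e0 : ℕ → ℝ), 0 < ρ ∧ ρ < 1 ∧ 0 ≤ C ∧ CgP ≤ Cg ∧
  (∀ j, 0 ≤ cg j) ∧ (∀ j, 0 < e0 j ∧ e0 j ≤ 1) ∧
  ∀ (n : ℕ) (P : ℝ), 0 ≤ P → Root2 n P → ∃ (κ : Type) (t : TSys n κ),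
    (∀ ε : ℝ, 0 < ε → ∃ J, ∀ j, J ≤ j → t.δ j ≤ ε) ∧ (∀ j, (t.δ j)⁻¹ ≤ D j) ∧
    (∀ j, 1 ≤ t.K j ∧ t.K j ≤ Kf j) ∧ (∀ j b i, (t.P j b i).C ≤ Cg) ∧ (∀ j, GenL t j (cg j)) ∧
    ∀ f o K V 𝒩 (hd : Dat2 n f o K V 𝒩), ∀ j, 1 ≤ j → ∀ b i, ∀ Λ ≤ K, ∀ z,
      used n K V f b Λ z → tpJ t.sys K V f j b (e0 j) (32 * (1 + 2 * Cg)) Λ z = Λ →
      TR (nvF hd b ∅) (Wr (gb n b) (used n K V f b)
        (tpJ t.sys K V f j b (e0 j) (32 * (1 + 2 * Cg))) Λ z) (rlJ t.sys K V f j b i) ≤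
        C * ρ ^ j * e0 j * (1 + P) * cd (gb n b) Λ z

/-- **The steps from the windows.** -/
theorem stepHyp_of_winHyp (h : WinHyp) : StepHyp := by
  obtain ⟨ρ, C, Cg, D, Kf, cg, e0, hρ0, hρ1, hC, hCg, hcg, he0, h⟩ := h
  refine ⟨ρ, 2 ^ 22 * C, Cg, D, Kf, cg, hρ0, hρ1, by positivity, hCg, hcg, fun n P hP hroot => ?_⟩
  obtain ⟨κ, t, h1, h2, h3, h4, h5, h6⟩ := h n P hP hroot
  refine ⟨κ, t, h1, h2, h3, h4, h5, fun f o K V 𝒩 hd j hj => ?_⟩
  have hCg0 : (0 : ℝ) ≤ Cg := le_trans (by unfold CgP; norm_num) hCg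
  have hρj : 0 < ρ ^ j := pow_pos hρ0 j
  have he := (he0 j).1
  refine stepB2_of_windows hd (badC_empty (by positivity)) (Cg := Cg)
    (fun b c => mix_J t j b hCg h4 c) hCg0 he (he0 j).2 le_rfl
    (a := C * ρ ^ j * e0 j * (1 + P)) (by positivity) (h6 f o K V 𝒩 hd j hj) (le_of_eq ?_)
  field_simp

/-- **The boundedness at `(4, 4, 4)` from (E) and the windows.** -/
theorem boundedAt_444_of_winHyp {C ε : ℝ} (hC : 0 ≤ C) (hE : H444.EnOut C ε) (h : WinHyp) :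
    Vale.Agent.P141.BoundedAt 4 4 4 (4 / 3) :=
  H444.boundedAt_444_of_stepHyp hC hE (stepHyp_of_winHyp h)

end

end Vale.Agent.P141.H379
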