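import Vale.Agent.P141.H998.TinyCell

/-!
# P141, line END, module (EXC): the exceptional cells of the accumulated tiny part

`F i`: the increments born at the scale `i`; `Dl F L k` = the sum of the increments born at the
scales `k, …, L`.

* `Bd`: a cell with local energy of the accumulated part larger than `lam`; `Ex`: below a bad
  cell; `Tp`: the maximal bad cells;
* `tops_le`: the packing of the maximal bad cells is at most `lam ^ (-1/2)` times the L1 sum of
  the local L2 averages of the increments;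
* `T4_exc_gen`, `T4_exc`: the total of the exceptional nodes.
-/

namespace Vale.Agent.P141.H379

open Finset
open Vale.Agent.P141.H315 Vale.Agent.P141.H347 Vale.Agent.P141.H8 Vale.Agent.P141.H935
open Vale.Agent.P141.H998 Vale.Agent.P141.H610
open Vale.Agent.P141.PL.H95 (gr mem_gr card_gr)
open Vale.Agent.P141.PL.H855 (CBlk0 CSlot0 N4 TR T4_toNV)

noncomputable section

open scoped Classical

variable {X α : Type*} {g : Grid X}

/-- the sum of the increments born at the scales `k, …, L` -/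
def Dl (F : ℕ → X → ℝ) (L k : ℕ) : X → ℝ := ∑ i ∈ Icc k L, F i

/-- a bad cell: the accumulated part has local energy larger than `lam` -/
def Bd (g : Grid X) (F : ℕ → X → ℝ) (L : ℕ) (lam : ℝ) (i : ℕ) (y : X) : Prop :=
  i ≤ L ∧ lam < en g (Dl F L i) i y

/-- a cell below (or equal to) a bad cell -/
def Ex (g : Grid X) (F : ℕ → X → ℝ) (L : ℕ) (lam : ℝ) (k : ℕ) (y : X) : Prop :=
  ∃ i, k ≤ i ∧ Bd g F L lam i y

/-- a maximal bad cell -/
def Tp (g : Grid X) (F : ℕ → X → ℝ) (L : ℕ) (lam : ℝ) (i : ℕ) (y : X) : Prop :=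
  Bd g F L lam i y ∧ ∀ j, i < j → ¬ Bd g F L lam j y

variable {F : ℕ → X → ℝ} {L : ℕ} {lam : ℝ}

theorem bd_const {i : ℕ} {y z : X} (h : z ∈ g.cube i y) :
    Bd g F L lam i z ↔ Bd g F L lam i y := by
  unfold Bd; rw [en_const h]

theorem tp_const (i : ℕ) (y z : X) (h : z ∈ g.cube i y) :
    Tp g F L lam i z ↔ Tp g F L lam i y := by
  unfold Tp
  rw [bd_const h]
  refine and_congr_right fun _ => forall_congr' fun j => forall_congr' fun hj => ?_
  rw [bd_const (g.cube_subset hj.le (g.mem j y) h)]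

theorem ex_const {k : ℕ} {y z : X} (h : z ∈ g.cube k y) :
    Ex g F L lam k z ↔ Ex g F L lam k y := by
  unfold Ex
  refine exists_congr fun i => and_congr_right fun hi => ?_
  rw [bd_const (g.cube_subset hi (g.mem i y) h)]

/-- there is a maximal bad cell above an exceptional cell -/
theorem ex_top {k : ℕ} {y : X} (h : Ex g F L lam k y) :
    ∃ i, k ≤ i ∧ i ≤ L ∧ Tp g F L lam i y := by
  obtain ⟨i0, hk, hb⟩ := h
  set t := Nat.findGreatest (fun i => Bd g F L lam i y) L with ht
  have h1 : Bd g F L lam t y := Nat.findGreatest_spec (P := fun i => Bd g F L lam i y) hb.1 hb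
  have h2 : i0 ≤ t := Nat.le_findGreatest hb.1 hb
  refine ⟨t, hk.trans h2, h1.1, h1, fun j hj hbj => ?_⟩
  have h3 : j ≤ t := Nat.le_findGreatest hbj.1 hbj
  omega

theorem tp_uniq {i j : ℕ} {y : X} (h1 : Tp g F L lam i y) (h2 : Tp g F L lam j y) : i = j := by
  rcases lt_trichotomy i j with h | h | h
  · exact absurd h2.1 (h1.2 j h)
  · exact h
  · exact absurd h1.1 (h2.2 i h)

/-- off the exceptional cells the accumulated part is small -/
theorem en_le_of_nex {k : ℕ} {y : X} (h : ¬ Ex g F L lam k y) {i : ℕ} (hk : k ≤ i) (hi : i ≤ L) :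
    en g (Dl F L i) i y ≤ lam := by
  by_contra h1
  exact h ⟨i, hk, hi, not_le.1 h1⟩

/-- the region off the exceptional cells -/
theorem rgn_nex {gd ud : ℕ → X → Prop} {x : X} (h : Rgn g gd L x ud) :
    Rgn g gd L x (An ud fun k y => ¬ Ex g F L lam k y) where
  const k y y' hy' := by
    show ud k y' ∧ ¬ Ex g F L lam k y' ↔ ud k y ∧ ¬ Ex g F L lam k y
    rw [ex_const hy', h.const k y y' hy']
  up k hk y := by
    rintro ⟨h1, h2⟩
    exact ⟨h.up k hk y h1, fun ⟨i, hi, hb⟩ => h2 ⟨i, by omega, hb⟩⟩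
  bel k y h1 := h.bel k y h1.1
  sub k y h1 := h.sub k y h1.1

/-- Cauchy-Schwarz over disjoint tops inside the cells of one scale -/
theorem tops_one {gd ud : ℕ → X → Prop} {x : X} (h : Rgn g gd L x ud) {l : ℕ} (hl : l ≤ L)
    (G : X → ℝ) :
    ∑ i ∈ range (l + 1), ∑ z ∈ g.cube L x,
      (if ud i z ∧ Tp g F L lam i z then √(en g G i z) else 0) ≤
      ∑ z ∈ g.cube L x, if ud l z then √(en g G l z) else 0 := by
  -- the local L2 average on the scale `l`
  set s : X → ℝ := fun z => √(en g G l z) with hs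
  have hs0 : ∀ z, 0 ≤ s z := fun z => Real.sqrt_nonneg _
  have hsc : ∀ i ≤ l, ∀ y z, z ∈ g.cube i y → s z = s y := by
    intro i hi y z hz
    simp only [hs]
    rw [en_const (g.cube_subset hi (g.mem l y) hz)]
  set c : ℕ → X → ℝ := fun i z => if ud i z ∧ Tp g F L lam i z then (1 : ℝ) else 0 with hc
  have hc0 : ∀ i z, 0 ≤ c i z := by
    intro i z; simp only [hc]; split_ifs <;> norm_num
  -- at every point there is at most one top
  have hc1 : ∀ z, ∑ i ∈ range (l + 1), c i z ≤ if ud l z then (1 : ℝ) else 0 := by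
    intro z
    by_cases h1 : ∃ i ∈ range (l + 1), ud i z ∧ Tp g F L lam i z
    · obtain ⟨i, hi, hu, ht⟩ := h1
      have hil : i ≤ l := by have := mem_range.1 hi; omega
      rw [if_pos (h.up' hil hl hu), sum_eq_single i]
      · simp only [hc]; rw [if_pos ⟨hu, ht⟩]
      · intro j _ hj
        simp only [hc]
        exact if_neg fun h2 => hj (tp_uniq h2.2 ht)
      · intro h2; exact absurd hi h2
    · push Not at h1
      have e : ∑ i ∈ range (l + 1), c i z = 0 := sum_eq_zero fun i hi => by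
        simp only [hc]
        exact if_neg fun h2 => h1 i hi h2.1 h2.2
      rw [e]; split_ifs <;> norm_num
  -- pointwise AM-GM
  have hpt : ∀ i ∈ range (l + 1), ∀ z,
      (if ud i z ∧ Tp g F L lam i z then √(en g G i z) else 0) ≤
        1 / 2 * (en g G i z * (c i z / s z)) + 1 / 2 * (c i z * s z) := by
    intro i hi z
    have hil : i ≤ l := by have := mem_range.1 hi; omega
    simp only [hc]
    split_ifs with h1
    · rcases eq_or_lt_of_le (hs0 z) with h2 | h2
      · have h3 : en g G l z = 0 := (Real.sqrt_eq_zero (en_nonneg l z)).1 h2.symm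
        have h4 : dot (g.cube l z) G G = 0 := by
          unfold en at h3
          exact (div_eq_zero_iff.1 h3).resolve_right (cd_pos g l z).ne'
        have h5 : dot (g.cube i z) G G ≤ dot (g.cube l z) G G :=
          sum_le_sum_of_subset_of_nonneg (g.cube_subset hil (g.mem l z))
            fun y _ _ => mul_self_nonneg _
        have h6 : en g G i z = 0 := by
          unfold en
          rw [le_antisymm (h5.trans h4.le) (dot_self_nonneg _ _), zero_div]
        rw [h6, Real.sqrt_zero]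
        simp [← h2]
      · have h3 := Real.sq_sqrt (en_nonneg (g := g) (F := G) i z)
        have h4 : √(en g G i z) * s z ≤ 1 / 2 * en g G i z + 1 / 2 * s z ^ 2 := by
          nlinarith [sq_nonneg (√(en g G i z) - s z)]
        rw [one_mul, ← mul_le_mul_iff_left₀ h2]
        refine h4.trans (le_of_eq ?_)
        field_simp
    · simp
  have e0 := sum_le_sum fun i (hi : i ∈ range (l + 1)) =>
    sum_le_sum fun z (_ : z ∈ g.cube L x) => hpt i hi z
  refine e0.trans ?_
  have e1 : ∑ i ∈ range (l + 1), ∑ z ∈ g.cube L x,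
      (1 / 2 * (en g G i z * (c i z / s z)) + 1 / 2 * (c i z * s z)) =
      1 / 2 * (∑ i ∈ range (l + 1), ∑ z ∈ g.cube L x, en g G i z * (c i z / s z)) +
        1 / 2 * (∑ i ∈ range (l + 1), ∑ z ∈ g.cube L x, c i z * s z) := by
    simp only [sum_add_distrib, mul_sum]
  rw [e1]
  -- the second part
  have e2 : ∑ i ∈ range (l + 1), ∑ z ∈ g.cube L x, c i z * s z ≤
      ∑ z ∈ g.cube L x, if ud l z then √(en g G l z) else 0 := by
    rw [sum_comm]
    refine sum_le_sum fun z _ => ?_
    rw [← sum_mul]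
    refine (mul_le_mul_of_nonneg_right (hc1 z) (hs0 z)).trans (le_of_eq ?_)
    split_ifs <;> simp [hs]
  -- the first part
  have e3 : ∑ i ∈ range (l + 1), ∑ z ∈ g.cube L x, en g G i z * (c i z / s z) ≤
      ∑ z ∈ g.cube L x, if ud l z then √(en g G l z) else 0 := by
    have f1 : ∀ i ∈ range (l + 1), ∑ z ∈ g.cube L x, en g G i z * (c i z / s z) =
        ∑ y ∈ g.cube L x, G y * G y * (c i y / s y) := by
      intro i hi
      have hil : i ≤ l := by have := mem_range.1 hi; omega
      rw [← sum_swap g (hil.trans hl) x (fun y => G y * G y) (fun y => c i y / s y)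
        (fun y z hz => by
          simp only [hc]
          rw [hsc i hil y z hz, h.const i y z hz, tp_const i y z hz])]
      rfl
    rw [sum_congr rfl f1, sum_comm]
    have f2 : ∀ y ∈ g.cube L x, ∑ i ∈ range (l + 1), G y * G y * (c i y / s y) ≤
        G y * G y * ((if ud l y then (1 : ℝ) else 0) / s y) := by
      intro y _
      rw [← mul_sum, ← sum_div]
      exact mul_le_mul_of_nonneg_left (div_le_div_of_nonneg_right (hc1 y) (hs0 y))
        (mul_self_nonneg _)
    refine (sum_le_sum f2).trans (le_of_eq ?_)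
    rw [← sum_swap g hl x (fun y => G y * G y)
      (fun y => (if ud l y then (1 : ℝ) else 0) / s y) (fun y z hz => by
        rw [hsc l le_rfl y z hz, h.const l y z hz])]
    refine sum_congr rfl fun z _ => ?_
    have f3 : (∑ y ∈ g.cube l z, G y * G y) / cd g l z = s z * s z := by
      simp only [hs]
      rw [Real.mul_self_sqrt (en_nonneg l z)]
      rfl
    rw [f3]
    rcases eq_or_lt_of_le (hs0 z) with h2 | h2
    · have h3 : √(en g G l z) = 0 := h2.symm
      rw [← h2, h3]; simp
    · have h3 : √(en g G l z) = s z := rfl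
      rw [h3]
      split_ifs
      · field_simp
      · simp
  linarith

/-- **the packing of the maximal bad cells** -/
theorem tops_le {gd ud : ℕ → X → Prop} {x : X} (h : Rgn g gd L x ud) (hlam : 0 < lam) :
    ∑ i ∈ range (L + 1), ∑ z ∈ g.cube L x, (if ud i z ∧ Tp g F L lam i z then (1 : ℝ) else 0) ≤
      (√lam)⁻¹ * ∑ l ∈ range (L + 1), ∑ z ∈ g.cube L x,
        if ud l z then √(en g (F l) l z) else 0 := by
  have hs : 0 < √lam := Real.sqrt_pos.2 hlam
  rw [← div_eq_inv_mul, le_div_iff₀ hs, sum_mul]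
  have h1 : ∀ i ∈ range (L + 1), (∑ z ∈ g.cube L x,
      (if ud i z ∧ Tp g F L lam i z then (1 : ℝ) else 0)) * √lam ≤
      ∑ l ∈ range (L + 1), ∑ z ∈ g.cube L x,
        if i ≤ l then (if ud i z ∧ Tp g F L lam i z then √(en g (F l) i z) else 0) else 0 := by
    intro i hi
    rw [sum_mul, sum_comm]
    refine sum_le_sum fun z _ => ?_
    split_ifs with h2
    · rw [one_mul]
      have h3 : √lam ≤ √(en g (Dl F L i) i z) := Real.sqrt_le_sqrt h2.2.1.2.le
      refine h3.trans ((sqrt_en_sum (Icc i L) F i z).trans (le_of_eq ?_))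
      rw [← sum_filter]
      refine sum_congr ?_ fun _ _ => rfl
      ext l
      simp only [mem_Icc, mem_filter, mem_range]
      omega
    · rw [zero_mul]
      refine sum_nonneg fun _ _ => ?_
      split_ifs <;> exact le_rfl
  refine (sum_le_sum h1).trans ?_
  rw [sum_comm]
  refine sum_le_sum fun l hl => ?_
  have hlL : l ≤ L := by have := mem_range.1 hl; omega
  refine le_trans (le_of_eq ?_) (tops_one (F := F) (lam := lam) h hlL (F l))
  have e1 : ∀ i ∈ range (L + 1), (∑ z ∈ g.cube L x,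
      if i ≤ l then (if ud i z ∧ Tp g F L lam i z then √(en g (F l) i z) else 0) else 0) =
      if i ≤ l then ∑ z ∈ g.cube L x,
        (if ud i z ∧ Tp g F L lam i z then √(en g (F l) i z) else 0) else 0 := by
    intro i _
    split_ifs
    · rfl
    · exact sum_const_zero
  rw [sum_congr rfl e1, ← sum_filter]
  refine sum_congr ?_ fun _ _ => rfl
  ext i
  simp only [mem_filter, mem_range]
  omega

/-- **the total of the exceptional nodes**, abstract total below one cell -/
theorem T4_exc_gen {nv : NV g α} {gd ud : ℕ → X → Prop} {x : X} (h : Rgn g gd L x ud)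
    (hlam : 0 < lam) {b : ℝ} (hb : 0 ≤ b) {A B C D : ℕ → X → ℝ}
    (hT : ∀ i ≤ L, ∀ z ∈ g.cube L x, ud i z → T4 nv (Bw g ud i z) A B C D ≤ b * cd g i z) :
    T4 nv (An ud (Ex g F L lam)) A B C D ≤
      b * (√lam)⁻¹ * ∑ l ∈ range (L + 1), ∑ z ∈ g.cube L x,
        if ud l z then √(en g (F l) l z) else 0 := by
  refine (T4_tops h (fun k y _ hE => ex_top hE) tp_const
    (fun i hi z hz hu _ => hT i hi z hz hu)).trans ?_
  rw [mul_assoc]
  exact mul_le_mul_of_nonneg_left (tops_le h hlam) hb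

/-- the total of a region = the exceptional nodes and the nodes of the region off them -/
theorem T4_exc_split {nv : NV g α} {ud : ℕ → X → Prop} (F : ℕ → X → ℝ) (L : ℕ) (lam : ℝ)
    (A B C D : ℕ → X → ℝ) :
    T4 nv ud A B C D = T4 nv (An ud (Ex g F L lam)) A B C D +
      T4 nv (An ud fun k y => ¬ Ex g F L lam k y) A B C D :=
  T4_split _ _ _ _ _

end

section box

variable {α : Type*} {s : ℤ}

noncomputable section

open scoped Classical

/-- **the exceptional nodes from the black box**: any four moving slots -/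
theorem T4_exc_box {nv : N4 (gr 7 s) α} {gd ud : ℕ → ℤ → Prop} {CP : ℝ} (hCP : 0 ≤ CP)
    (hbox : BoxHyp nv gd CP) (σ : Equiv.Perm (Fin 4)) {L : ℕ} {x : ℤ}
    (h : Rgn (gr 7 s) gd L x ud) {F : ℕ → ℤ → ℝ} {lam : ℝ} (hlam : 0 < lam)
    {A B C D : ℕ → ℤ → ℝ} {a b c d : ℝ} (ha : 0 ≤ a) (hb : 0 ≤ b) (hc : 0 ≤ c) (hd : 0 ≤ d)
    (hA : SlR s gd ud A a) (hB : SlR s gd ud B b) (hC : SlR s gd ud C c)
    (hD : SlR s gd ud D d) :
    T4 (nv.toNV σ) (An ud (Ex (gr 7 s) F L lam)) A B C D ≤
      CP * (a * b * c * d) / 128 * (√lam)⁻¹ * ∑ l ∈ range (L + 1), ∑ z ∈ (gr 7 s).cube L x,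
        if ud l z then √(en (gr 7 s) (F l) l z) else 0 := by
  refine T4_exc_gen h hlam (by positivity) fun i hi z hz hu => ?_
  have h1 := rgn_bw h hi z
  have h2 : Bw (gr 7 s) ud i z i z := ⟨hu, le_rfl, (gr 7 s).mem i z⟩
  exact T4_of_box hbox σ h1 h2 (hA i z _ h1 (fun _ _ hy => hy.1) h2)
    (hB i z _ h1 (fun _ _ hy => hy.1) h2) (hC i z _ h1 (fun _ _ hy => hy.1) h2)
    (hD i z _ h1 (fun _ _ hy => hy.1) h2)

/-- **(EXC), the exceptional nodes of END**: role slot `P`, uniform slot `G1`, two block slots -/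
theorem T4_exc {nv : N4 (gr 7 s) α} {gd ud : ℕ → ℤ → Prop} {CP : ℝ} (hCP : 0 ≤ CP)
    (hbox : BoxHyp nv gd CP) (σ : Equiv.Perm (Fin 4)) {L : ℕ} {x : ℤ}
    (h : Rgn (gr 7 s) gd L x ud) {Fb : ℕ → ℤ → ℝ} {lam : ℝ} (hlam : 0 < lam)
    {P G1 : ℤ → ℝ} {eP eG : ℝ} (heP : 0 < eP) (heG : 0 < eG) (hP : En (gr 7 s) ud P eP)
    (hG : En (gr 7 s) ud G1 eG) {t : ℕ → ℤ → ℕ} {F : Fin 2 → ℕ → ℤ → ℝ} {e K : ℝ} (he : 0 < e)
    (hK : 1 ≤ K) (hF : Fam2 (gr 7 s) ud L t F e K) :
    T4 (nv.toNV σ) (An ud (Ex (gr 7 s) Fb L lam)) (st P) (st G1) (mv t (F 0)) (mv t (F 1)) ≤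
      362 * 10 ^ 3 * CP * (√eP * √eG * (e * K)) * (√lam)⁻¹ *
        ∑ l ∈ range (L + 1), ∑ z ∈ (gr 7 s).cube L x,
          if ud l z then √(en (gr 7 s) (Fb l) l z) else 0 := by
  have h1 := T4_exc_box hCP hbox σ h (F := Fb) hlam (by positivity) (by positivity)
    (by positivity) (by positivity) (slR_st heP hP) (slR_st heG hG)
    (slR_fam h he hK hF 0) (slR_fam h he hK hF 1)
  refine h1.trans ?_
  have h2 : √(e * K) * √(e * K) = e * K := Real.mul_self_sqrt (by positivity)
  have hS : 0 ≤ ∑ l ∈ range (L + 1), ∑ z ∈ (gr 7 s).cube L x,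
      (if ud l z then √(en (gr 7 s) (Fb l) l z) else 0) :=
    sum_nonneg fun _ _ => sum_nonneg fun _ _ => by
      split_ifs
      · exact Real.sqrt_nonneg _
      · exact le_rfl
  refine mul_le_mul_of_nonneg_right (mul_le_mul_of_nonneg_right ?_ (by positivity)) hS
  have h3 : CP * (68 * √eP * (68 * √eG) * (100 * √(e * K)) * (100 * √(e * K))) / 128 =
      361250 * (CP * (√eP * √eG * (√(e * K) * √(e * K)))) := by ring
  rw [h3, h2]
  have h4 : 0 ≤ CP * (√eP * √eG * (e * K)) := by positivity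
  nlinarith

end

end box

end Vale.Agent.P141.H379
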