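import Vale.Agent.P141.H935.Slot
import Vale.Agent.P141.H540.RPart

/-!
# P141, line END: a slot cut by the used cells as a moving function which is zero at scale 0

`Ys ud t F k` of `H935/Slot` is the moving function of a slot, cut by the used cells; `Z0` is the
same with the value zero at the scale 0.  It changes between the scales `k` and `k + 1` only at the
points `CT k` (tops and exits, every point for `k = 0`); `NT w k`: near a changed point.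

* `sum_Ico_le`: covering of an interval by cells;
* `Z0_zero`, `Z0_step`, `NT_near`;
* `Z0_pow`: the power of the changes in an interval (`D` of `H38/Pow`);
* `line_L`, `line_col`: the energies on the lines;
* `lineH_slot`, `lineH_fam`: the hypotheses `LineH` of `H540/RPart`.
-/

namespace Vale.Agent.P141.H379

open Finset
open Vale.Agent.P141.H315 Vale.Agent.P141.PL.H318 Vale.Agent.P141.H347 Vale.Agent.P141.H8
open Vale.Agent.P141.PL.H95 (gr mem_gr card_gr gr_cube)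
open Vale.Agent.P141.H935 (Ys CH)
open Vale.Agent.P141.H540 (ln LineH)
open Vale.Agent.P141.PL (iv)

noncomputable section

open scoped Classical

/-! ### Covering by cells -/

section cover

variable {s : ℤ} {k : ℕ}

theorem cube_Ico (y : ℤ) : (gr 7 s).cube k y =
    Ico (2 ^ (k + 7) * ((y + s) / 2 ^ (k + 7)) - s)
      (2 ^ (k + 7) * ((y + s) / 2 ^ (k + 7)) - s + 2 ^ (k + 7)) := gr_cube _ _ _ _

theorem cube_near {y z : ℤ} (h : z ∈ (gr 7 s).cube k y) : |z - y| < 2 ^ (k + 7) := by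
  have h1 := (gr 7 s).mem k y
  rw [cube_Ico, mem_Ico] at h h1
  rw [abs_lt]
  constructor <;> linarith [h.1, h.2, h1.1, h1.2]

theorem card_cube (y : ℤ) : (((gr 7 s).cube k y).card : ℝ) = 2 ^ (k + 7) := by
  rw [card_gr]; push_cast; rfl

/-- **Covering of an interval by cells**: `f` has small cell sums, `ψ` is constant on the cells. -/
theorem sum_Ico_le {f ψ : ℤ → ℝ} {E : ℝ} (hf : ∀ z, 0 ≤ f z) (hψ : ∀ z, 0 ≤ ψ z)
    (hE : ∀ y, ∑ z ∈ (gr 7 s).cube k y, f z ≤ E * 2 ^ (k + 7))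
    (hc : ∀ y, ∀ z ∈ (gr 7 s).cube k y, ψ z = ψ y) (a : ℤ) (ℓ : ℤ) :
    ∑ z ∈ Ico a (a + ℓ), f z * ψ z ≤
      E * ∑ z ∈ Ico (a - 2 ^ (k + 7)) (a + ℓ + 2 ^ (k + 7)), ψ z := by
  have hE0 : 0 ≤ E := by
    have h1 := (sum_nonneg fun z _ => hf z).trans (hE 0)
    exact nonneg_of_mul_nonneg_left h1 (by positivity)
  set I := Ico a (a + ℓ) with hI
  set J := Ico (a - 2 ^ (k + 7)) (a + ℓ + 2 ^ (k + 7)) with hJ
  set C : Finset (Finset ℤ) := I.image ((gr 7 s).cube k) with hC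
  have h0 : ∀ z ∈ I, (gr 7 s).cube k z ∈ C := fun z hz => mem_image_of_mem _ hz
  rw [← sum_fiberwise_of_maps_to h0]
  -- one cell
  have h1 : ∀ Q ∈ C, ∑ z ∈ I.filter (fun z => (gr 7 s).cube k z = Q), f z * ψ z ≤
      E * ∑ z ∈ Q, ψ z := by
    intro Q hQ
    obtain ⟨y, _, rfl⟩ := mem_image.1 hQ
    have h2 : I.filter (fun z => (gr 7 s).cube k z = (gr 7 s).cube k y) ⊆ (gr 7 s).cube k y := by
      intro z hz
      rw [← (mem_filter.1 hz).2]
      exact (gr 7 s).mem k z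
    refine (sum_le_sum_of_subset_of_nonneg h2 fun z _ _ => mul_nonneg (hf z) (hψ z)).trans ?_
    have h3 : ∑ z ∈ (gr 7 s).cube k y, f z * ψ z = (∑ z ∈ (gr 7 s).cube k y, f z) * ψ y := by
      rw [sum_mul]; exact sum_congr rfl fun z hz => by rw [hc y z hz]
    have h4 : ∑ z ∈ (gr 7 s).cube k y, ψ z = 2 ^ (k + 7) * ψ y := by
      rw [sum_congr rfl fun z hz => hc y z hz, sum_const, nsmul_eq_mul, card_cube]
    rw [h3, h4]
    calc _ ≤ E * 2 ^ (k + 7) * ψ y := mul_le_mul_of_nonneg_right (hE y) (hψ y)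
      _ = _ := by ring
  refine (sum_le_sum h1).trans ?_
  rw [← mul_sum]
  refine mul_le_mul_of_nonneg_left ?_ hE0
  -- the cells are disjoint and inside of `J`
  have h5 : (C : Set (Finset ℤ)).PairwiseDisjoint id := by
    intro Q hQ Q' hQ' hne
    obtain ⟨y, _, rfl⟩ := mem_image.1 (mem_coe.1 hQ)
    obtain ⟨y', _, rfl⟩ := mem_image.1 (mem_coe.1 hQ')
    refine disjoint_left.2 fun z hz hz' => hne ?_
    simp only [id] at hz hz'
    rw [← (gr 7 s).eq_of_mem k y z hz, (gr 7 s).eq_of_mem k y' z hz']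
  have h6 : ∑ Q ∈ C, ∑ z ∈ Q, ψ z = ∑ z ∈ C.biUnion id, ψ z := by
    rw [sum_biUnion h5]; rfl
  rw [h6]
  refine sum_le_sum_of_subset_of_nonneg ?_ fun z _ _ => hψ z
  intro z hz
  obtain ⟨Q, hQ, hzQ⟩ := mem_biUnion.1 hz
  obtain ⟨y, hy, rfl⟩ := mem_image.1 hQ
  have h7 := abs_lt.1 (cube_near (show z ∈ (gr 7 s).cube k y from hzQ))
  rw [hI, mem_Ico] at hy
  rw [hJ, mem_Ico]
  constructor <;> linarith [h7.1, h7.2, hy.1, hy.2]

theorem sum_Ico_one {f : ℤ → ℝ} {E : ℝ} (hf : ∀ z, 0 ≤ f z)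
    (hE : ∀ y, ∑ z ∈ (gr 7 s).cube k y, f z ≤ E * 2 ^ (k + 7)) (a : ℤ) (ℓ : ℕ) :
    ∑ z ∈ Ico a (a + ℓ), f z ≤ E * (ℓ + 2 * 2 ^ (k + 7)) := by
  have h1 := sum_Ico_le (ψ := fun _ => 1) hf (fun _ => zero_le_one) hE (fun _ _ _ => rfl) a ℓ
  simp only [mul_one] at h1
  refine h1.trans (le_of_eq ?_)
  rw [sum_const, nsmul_eq_mul, mul_one, Int.card_Ico]
  have h2 : a + ℓ + 2 ^ (k + 7) - (a - 2 ^ (k + 7)) = ((ℓ + 2 * 2 ^ (k + 7) : ℕ) : ℤ) := by
    push_cast; ring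
  rw [h2, Int.toNat_natCast]
  push_cast
  rfl

/-- **Near the points `T`**: `T` is constant on the cells of scale `k`. -/
theorem near_gen {f : ℤ → ℝ} {E : ℝ} (hf : ∀ z, 0 ≤ f z)
    (hE : ∀ y, ∑ z ∈ (gr 7 s).cube k y, f z ≤ E * 2 ^ (k + 7)) {T : ℤ → Prop}
    (hT : ∀ y, ∀ z ∈ (gr 7 s).cube k y, T z ↔ T y) {w : ℤ} (hw : w ≤ 2 ^ 7) (a ℓ : ℤ) :
    ∑ z ∈ Ico a (a + ℓ), (if ∃ y, |z - y| ≤ w * 2 ^ k ∧ T y then f z else 0) ≤
      3 * E * ∑ z ∈ Ico (a - 2 ^ (k + 8)) (a + ℓ + 2 ^ (k + 8)), if T z then (1 : ℝ) else 0 := by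
  have hE0 : 0 ≤ E := by
    have h1 := (sum_nonneg fun z _ => hf z).trans (hE 0)
    exact nonneg_of_mul_nonneg_left h1 (by positivity)
  set M : ℤ := 2 ^ (k + 7) with hM
  have hMp : 0 < M := by positivity
  have hM8 : (2 : ℤ) ^ (k + 8) = 2 * M := by rw [hM]; ring
  set ψ : ℤ → ℤ → ℝ := fun δ z => if T (z + δ) then (1 : ℝ) else 0 with hψ
  have hψ0 : ∀ δ z, 0 ≤ ψ δ z := fun δ z => by simp only [hψ]; split_ifs <;> norm_num
  have hcell : ∀ y z : ℤ, z ∈ (gr 7 s).cube k y ↔ (z + s) / M = (y + s) / M := fun y z => mem_gr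
  -- pointwise
  have hpt : ∀ z, (if ∃ y, |z - y| ≤ w * 2 ^ k ∧ T y then f z else 0) ≤
      f z * ψ (-M) z + f z * ψ 0 z + f z * ψ M z := by
    intro z
    have g1 := mul_nonneg (hf z) (hψ0 (-M) z)
    have g2 := mul_nonneg (hf z) (hψ0 0 z)
    have g3 := mul_nonneg (hf z) (hψ0 M z)
    split_ifs with h
    · obtain ⟨y, hy, hTy⟩ := h
      have hy' : |z - y| ≤ M := by
        refine hy.trans ?_
        rw [hM, pow_add, mul_comm]
        exact mul_le_mul_of_nonneg_left hw (by positivity)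
      obtain ⟨y1, y2⟩ := abs_le.1 hy'
      have e1 : (z - M + s) / M = (z + s) / M - 1 := by
        rw [show z - M + s = z + s + M * (-1) by ring, Int.add_mul_ediv_left _ _ hMp.ne']; ring
      have e2 : (z + M + s) / M = (z + s) / M + 1 := by
        rw [show z + M + s = z + s + M * 1 by ring, Int.add_mul_ediv_left _ _ hMp.ne']
      have b1 : (z + s) / M - 1 ≤ (y + s) / M := by
        rw [← e1]; exact Int.ediv_le_ediv hMp (by linarith)
      have b2 : (y + s) / M ≤ (z + s) / M + 1 := by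
        rw [← e2]; exact Int.ediv_le_ediv hMp (by linarith)
      have b3 : (y + s) / M = (z + s) / M - 1 ∨ (y + s) / M = (z + s) / M ∨
          (y + s) / M = (z + s) / M + 1 := by omega
      rcases b3 with b | b | b
      · have h1 : T (z + -M) := (hT y _ ((hcell y _).2 (by
          rw [← sub_eq_add_neg, e1, b]))).2 hTy
        have : ψ (-M) z = 1 := if_pos h1
        rw [this, mul_one]; linarith
      · have h1 : T (z + 0) := (hT y _ ((hcell y _).2 (by rw [add_zero, b]))).2 hTy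
        have : ψ 0 z = 1 := if_pos h1
        rw [this, mul_one]; linarith
      · have h1 : T (z + M) := (hT y _ ((hcell y _).2 (by rw [e2, b]))).2 hTy
        have : ψ M z = 1 := if_pos h1
        rw [this, mul_one]; linarith
    · linarith
  refine (sum_le_sum fun z _ => hpt z).trans ?_
  rw [sum_add_distrib, sum_add_distrib]
  -- one translate
  have hone : ∀ j : ℤ, |j| ≤ 1 → ∑ z ∈ Ico a (a + ℓ), f z * ψ (M * j) z ≤
      E * ∑ z ∈ Ico (a - 2 ^ (k + 8)) (a + ℓ + 2 ^ (k + 8)), if T z then (1 : ℝ) else 0 := by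
    intro j hj
    obtain ⟨j1, j2⟩ := abs_le.1 hj
    have h1 := sum_Ico_le (s := s) (k := k) hf (hψ0 (M * j)) hE (fun y z hz => by
      simp only [hψ]
      have e3 : z + M * j ∈ (gr 7 s).cube k (y + M * j) := by
        rw [hcell] at hz ⊢
        rw [show z + M * j + s = z + s + M * j by ring,
          show y + M * j + s = y + s + M * j by ring, Int.add_mul_ediv_left _ _ hMp.ne',
          Int.add_mul_ediv_left _ _ hMp.ne', hz]
      rw [hT _ _ e3]) a ℓ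
    refine h1.trans (mul_le_mul_of_nonneg_left ?_ hE0)
    rw [← hM, hM8]
    have e4 : ∑ z ∈ Ico (a - M) (a + ℓ + M), ψ (M * j) z =
        ∑ z ∈ (Ico (a - M) (a + ℓ + M)).image (fun z => z + M * j),
          if T z then (1 : ℝ) else 0 := by
      rw [sum_image fun x _ y _ h => by simpa using h]
    rw [e4]
    refine sum_le_sum_of_subset_of_nonneg ?_ fun z _ _ => by split_ifs <;> norm_num
    intro z hz
    obtain ⟨z', hz', rfl⟩ := mem_image.1 hz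
    rw [mem_Ico] at hz' ⊢
    constructor <;> nlinarith [hz'.1, hz'.2]
  have k1 := hone (-1) (by norm_num)
  have k2 := hone 0 (by norm_num)
  have k3 := hone 1 (by norm_num)
  rw [mul_neg, mul_one] at k1
  rw [mul_zero] at k2
  rw [mul_one] at k3
  linarith

end cover

/-! ### The moving function -/

/-- the moving function of a slot cut by the used cells, zero at the scale 0 -/
def Z0 (ud : ℕ → ℤ → Prop) (t : ℕ → ℤ → ℕ) (F : ℕ → ℤ → ℝ) (k : ℕ) (y : ℤ) : ℝ :=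
  if k = 0 then 0 else Ys ud t F k y

/-- the changed points -/
def CT (ud : ℕ → ℤ → Prop) (t : ℕ → ℤ → ℕ) (k : ℕ) (y : ℤ) : Prop := k = 0 ∨ CH ud t k y

/-- near a changed point -/
def NT (ud : ℕ → ℤ → Prop) (t : ℕ → ℤ → ℕ) (w : ℤ) (k : ℕ) (y : ℤ) : Prop :=
  ∃ y', |y - y'| ≤ w * 2 ^ k ∧ CT ud t k y'

variable {s : ℤ} {gd ud : ℕ → ℤ → Prop} {Λ : ℕ} {x0 : ℤ} {t : ℕ → ℤ → ℕ} {F : ℕ → ℤ → ℝ}
  {e Kp : ℝ}

theorem Z0_zero : Z0 ud t F 0 = 0 := by
  funext y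
  simp [Z0]

theorem Z0_pos {k : ℕ} (hk : k ≠ 0) : Z0 ud t F k = Ys ud t F k := by
  funext y
  simp [Z0, hk]

theorem Z0_succ (k : ℕ) : Z0 ud t F (k + 1) = Ys ud t F (k + 1) := Z0_pos (Nat.succ_ne_zero k)

theorem Z0_sq_le (k : ℕ) (y : ℤ) : Z0 ud t F k y ^ 2 ≤ Ys ud t F k y ^ 2 := by
  by_cases hk : k = 0
  · subst hk
    rw [Z0_zero, Pi.zero_apply, zero_pow two_ne_zero]
    exact sq_nonneg _
  · rw [Z0_pos hk]

/-- **no change off the changed points** -/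
theorem Z0_step (hR : Rgn (gr 7 s) gd Λ x0 ud) (hl : Lab (gr 7 s) Λ t) {k : ℕ} (hk : k < Λ)
    (y : ℤ) (h : ¬ CT ud t k y) : Z0 ud t F (k + 1) y = Z0 ud t F k y := by
  unfold CT at h
  push Not at h
  rw [Z0_succ, Z0_pos h.1]
  have h1 := H935.Xs_step (F := F) (y0 := 0) (sg := 1) (u := y) hR hl hk (by
    rw [zero_add, one_mul]; exact h.2)
  unfold H935.Xs at h1
  simpa [Ys] using h1

/-- the hypothesis `T'` of `H38/Pow` -/
theorem NT_near {w d d' : ℤ} (hw : |d| + |d'| ≤ w) (k : ℕ) (y y' : ℤ) (h : CT ud t k y')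
    (hy : |y - y'| ≤ (|d| + |d'|) * (2 ^ k - 1)) : NT ud t w k y := by
  refine ⟨y', hy.trans ?_, h⟩
  have h0 : 0 ≤ |d| + |d'| := by positivity
  have h1 : (0 : ℤ) < 2 ^ k := by positivity
  nlinarith

/-- the changed points are unions of cells -/
theorem CT_const (hR : Rgn (gr 7 s) gd Λ x0 ud) (hl : Lab (gr 7 s) Λ t) (k : ℕ) (y : ℤ) :
    ∀ z ∈ (gr 7 s).cube k y, (CT ud t k z ↔ CT ud t k y) := by
  intro z hz
  have h1 := hR.const k y z hz
  have h2 : ud (k + 1) z ↔ ud (k + 1) y :=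
    hR.const (k + 1) y z ((gr 7 s).cube_subset (Nat.le_succ k) ((gr 7 s).mem _ _) hz)
  unfold CT CH
  rw [h1, h2]
  by_cases h3 : ud k y
  · rw [hl.const k (hR.bel k y h3).1 y z hz]
  · simp [h3]

theorem ys_cell (hR : Rgn (gr 7 s) gd Λ x0 ud) (hl : Lab (gr 7 s) Λ t)
    (hen : ∀ k y, ud k y → dot ((gr 7 s).cube k y) (F (t k y)) (F (t k y)) ≤
      e * cd (gr 7 s) k y) (he : 0 ≤ e) (k : ℕ) (y : ℤ) :
    ∑ v ∈ (gr 7 s).cube k y, Ys ud t F k v ^ 2 ≤ e * 2 ^ (k + 7) :=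
  H935.cube_en hR hl hen he k y

/-- the energy of the next scale on a cell -/
theorem ys_cell_succ (hR : Rgn (gr 7 s) gd Λ x0 ud) (hl : Lab (gr 7 s) Λ t)
    (hen : ∀ k y, ud k y → dot ((gr 7 s).cube k y) (F (t k y)) (F (t k y)) ≤
      e * cd (gr 7 s) k y) (he : 0 ≤ e) (k : ℕ) (y : ℤ) :
    ∑ v ∈ (gr 7 s).cube k y, Ys ud t F (k + 1) v ^ 2 ≤ 2 * e * 2 ^ (k + 7) := by
  refine (sum_le_sum_of_subset_of_nonneg ((gr 7 s).cube_subset (Nat.le_succ k)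
    ((gr 7 s).mem (k + 1) y)) fun _ _ _ => sq_nonneg _).trans
      ((ys_cell hR hl hen he (k + 1) y).trans (le_of_eq ?_))
  ring

/-! ### The power of the changes -/

/-- the energy near the changed points of one scale -/
theorem pow_one (hR : Rgn (gr 7 s) gd Λ x0 ud) (hl : Lab (gr 7 s) Λ t)
    (hen : ∀ k y, ud k y → dot ((gr 7 s).cube k y) (F (t k y)) (F (t k y)) ≤
      e * cd (gr 7 s) k y) (he : 0 ≤ e) {w : ℤ} (hw : w ≤ 2 ^ 7) (k : ℕ) (a ℓ : ℤ) :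
    ∑ z ∈ Ico a (a + ℓ), (if NT ud t w k z then Z0 ud t F (k + 1) z ^ 2 else 0) ≤
      6 * e * ∑ z ∈ Ico (a - 2 ^ (k + 8)) (a + ℓ + 2 ^ (k + 8)),
        if CT ud t k z then (1 : ℝ) else 0 := by
  have h1 := near_gen (s := s) (k := k) (f := fun z => Ys ud t F (k + 1) z ^ 2)
    (fun z => sq_nonneg _) (ys_cell_succ hR hl hen he k) (CT_const hR hl k) hw a ℓ
  rw [Z0_succ]
  refine h1.trans (le_of_eq ?_)
  ring

/-- the tops below the scale `N` in an interval -/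
theorem count_tops (hR : Rgn (gr 7 s) gd Λ x0 ud)
    (hp : ∀ k y, ud k y → tops (gr 7 s) ud t k y ≤ Kp * cd (gr 7 s) k y) (hK : 0 ≤ Kp) {N : ℕ}
    (hN : N ≤ Λ) (a : ℤ) (ℓ : ℕ) :
    ∑ z ∈ Ico a (a + ℓ), ∑ k ∈ range N, (if ud k z ∧ t k z = k then (1 : ℝ) else 0) ≤
      Kp * (ℓ + 2 * 2 ^ (N + 7)) := by
  refine sum_Ico_one (s := s) (k := N)
    (fun z => sum_nonneg fun _ _ => by split_ifs <;> norm_num) (fun y => ?_) a ℓ
  by_cases hu : ud N y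
  · have h1 := hp N y hu
    have h2 : cd (gr 7 s) N y = 2 ^ (N + 7) := by unfold cd; exact card_cube y
    rw [h2] at h1
    refine le_trans ?_ h1
    unfold tops
    rw [sum_comm]
    exact sum_le_sum_of_subset_of_nonneg (range_subset_range.2 (Nat.le_succ N))
      fun _ _ _ => sum_nonneg fun _ _ => by split_ifs <;> norm_num
  · rw [sum_eq_zero]
    · positivity
    · intro z hz
      refine sum_eq_zero fun k hk => if_neg fun h => hu ?_
      have h3 : ud N z := hR.up' (mem_range.1 hk).le hN h.1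
      exact (hR.const N y z hz).1 h3

/-- the exits below the scale `N` in an interval -/
theorem count_exits (hR : Rgn (gr 7 s) gd Λ x0 ud) {N : ℕ} (hN : N ≤ Λ) (z : ℤ) :
    ∑ k ∈ range N, (if ¬ ud k z ∧ ud (k + 1) z then (1 : ℝ) else 0) ≤ 1 := by
  by_cases h : ∃ k ∈ range N, ¬ ud k z ∧ ud (k + 1) z
  · obtain ⟨k, hk, h1, h2⟩ := h
    rw [sum_eq_single_of_mem k hk]
    · rw [if_pos ⟨h1, h2⟩]
    · intro j hj hne
      refine if_neg fun h3 => ?_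
      have hkN := mem_range.1 hk
      have hjN := mem_range.1 hj
      rcases Nat.lt_or_gt_of_ne hne with h4 | h4
      · exact h1 (hR.up' (show j + 1 ≤ k by omega) (by omega) h3.2)
      · exact h3.1 (hR.up' (show k + 1 ≤ j by omega) (by omega) h2)
  · push Not at h
    rw [sum_eq_zero]
    · norm_num
    · intro k hk
      exact if_neg fun h1 => h k hk h1.1 h1.2

/-- **The power of the changes** in an interval, all scales below `N`, the scale 0 included. -/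
theorem Z0_pow (hR : Rgn (gr 7 s) gd Λ x0 ud) (hl : Lab (gr 7 s) Λ t)
    (hen : ∀ k y, ud k y → dot ((gr 7 s).cube k y) (F (t k y)) (F (t k y)) ≤
      e * cd (gr 7 s) k y) (he : 0 ≤ e)
    (hp : ∀ k y, ud k y → tops (gr 7 s) ud t k y ≤ Kp * cd (gr 7 s) k y) (hK : 0 ≤ Kp)
    {w : ℤ} (hw : w ≤ 2 ^ 7) {N : ℕ} (hN : N ≤ Λ) {I : Finset ℤ} {a : ℤ} {ℓ : ℕ}
    (hI : I ⊆ Ico a (a + ℓ)) :
    ∑ k ∈ range N, ∑ z ∈ I, (if NT ud t w k z then Z0 ud t F (k + 1) z ^ 2 else 0) ≤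
      7 * (e * (Kp + 1)) * (ℓ + 4 * 2 ^ (N + 7)) := by
  have hsub : ∀ k, ∑ z ∈ I, (if NT ud t w k z then Z0 ud t F (k + 1) z ^ 2 else 0) ≤
      ∑ z ∈ Ico a (a + ℓ), (if NT ud t w k z then Z0 ud t F (k + 1) z ^ 2 else 0) := fun k =>
    sum_le_sum_of_subset_of_nonneg hI fun _ _ _ => by
      split_ifs
      · exact sq_nonneg _
      · exact le_rfl
  refine (sum_le_sum fun k _ => hsub k).trans ?_
  rcases Nat.eq_zero_or_pos N with hN0 | hN0
  · subst hN0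
    rw [sum_range_zero]
    positivity
  set J : Finset ℤ := Ico (a - 2 ^ (N + 7)) (a + ℓ + 2 ^ (N + 7)) with hJ
  -- the positive scales
  have hpos : ∀ k ∈ range N, ∑ z ∈ Ico a (a + ℓ),
      (if NT ud t w k z then Z0 ud t F (k + 1) z ^ 2 else 0) ≤
      (if k = 0 then e * (ℓ + 4 * 2 ^ (N + 7)) else 0) +
      6 * e * ∑ z ∈ J, ((if ud k z ∧ t k z = k then (1 : ℝ) else 0) +
        (if ¬ ud k z ∧ ud (k + 1) z then (1 : ℝ) else 0)) := by
    intro k hk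
    have hkN := mem_range.1 hk
    have hnn : 0 ≤ 6 * e * ∑ z ∈ J, ((if ud k z ∧ t k z = k then (1 : ℝ) else 0) +
        (if ¬ ud k z ∧ ud (k + 1) z then (1 : ℝ) else 0)) := by
      refine mul_nonneg (by positivity) (sum_nonneg fun _ _ => ?_)
      have : ∀ p : Prop, ∀ [Decidable p], (0 : ℝ) ≤ (if p then (1 : ℝ) else 0) := by
        intro p _; split_ifs <;> norm_num
      exact add_nonneg (this _) (this _)
    by_cases hk0 : k = 0
    · rw [if_pos hk0]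
      subst hk0
      have h1 : ∑ z ∈ Ico a (a + ℓ),
          (if NT ud t w 0 z then Z0 ud t F (0 + 1) z ^ 2 else 0) ≤
          ∑ z ∈ Ico a (a + ℓ), Ys ud t F 1 z ^ 2 := by
        refine sum_le_sum fun z _ => ?_
        rw [Z0_succ]
        split_ifs
        · exact le_rfl
        · exact sq_nonneg _
      have h2 := sum_Ico_one (s := s) (k := 1) (f := fun z => Ys ud t F 1 z ^ 2)
        (fun z => sq_nonneg _) (ys_cell hR hl hen he 1) a ℓ
      have h3 : (2 : ℝ) * 2 ^ (1 + 7) ≤ 4 * 2 ^ (N + 7) := by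
        have h4 : (2 : ℝ) ^ (1 + 7) ≤ 2 ^ (N + 7) :=
          pow_le_pow_right₀ (by norm_num) (by omega)
        have h5 : (0 : ℝ) < 2 ^ (N + 7) := by positivity
        linarith
      have h6 : e * (ℓ + 2 * 2 ^ (1 + 7)) ≤ e * (ℓ + 4 * 2 ^ (N + 7)) :=
        mul_le_mul_of_nonneg_left (by linarith) he
      linarith
    · rw [if_neg hk0, zero_add]
      refine (pow_one hR hl hen he hw k a ℓ).trans ?_
      refine mul_le_mul_of_nonneg_left ?_ (by positivity)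
      have h7 : (2 : ℤ) ^ (k + 8) ≤ 2 ^ (N + 7) := pow_le_pow_right₀ (by norm_num) (by omega)
      refine (sum_le_sum_of_subset_of_nonneg (t := J) ?_ fun _ _ _ => by
        split_ifs <;> norm_num).trans ?_
      · intro z hz
        rw [mem_Ico] at hz
        rw [hJ, mem_Ico]
        constructor <;> linarith [hz.1, hz.2]
      · refine sum_le_sum fun z _ => ?_
        unfold CT CH
        by_cases g1 : ud k z ∧ t k z = k <;> by_cases g2 : ¬ ud k z ∧ ud (k + 1) z <;>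
          simp only [g1, g2, hk0] <;> norm_num
  refine (sum_le_sum hpos).trans ?_
  rw [sum_add_distrib, ← mul_sum, sum_ite_eq' (range N) 0, if_pos (mem_range.2 hN0)]
  rw [sum_comm]
  simp only [sum_add_distrib]
  -- the counts
  have hJ' : J = Ico (a - 2 ^ (N + 7)) (a - 2 ^ (N + 7) + ((ℓ + 2 * 2 ^ (N + 7) : ℕ) : ℤ)) := by
    rw [hJ]; congr 1; push_cast; ring
  have c1 : ∑ z ∈ J, ∑ k ∈ range N, (if ud k z ∧ t k z = k then (1 : ℝ) else 0) ≤
      Kp * (ℓ + 4 * 2 ^ (N + 7)) := by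
    rw [hJ']
    refine (count_tops hR hp hK hN _ _).trans (le_of_eq ?_)
    push_cast; ring
  have c2 : ∑ z ∈ J, ∑ k ∈ range N, (if ¬ ud k z ∧ ud (k + 1) z then (1 : ℝ) else 0) ≤
      ℓ + 2 * 2 ^ (N + 7) := by
    refine (sum_le_sum fun z _ => count_exits hR hN z).trans (le_of_eq ?_)
    rw [sum_const, nsmul_eq_mul, mul_one, hJ', Int.card_Ico, add_sub_cancel_left,
      Int.toNat_natCast]
    push_cast; ring
  have hP : (0 : ℝ) < 2 ^ (N + 7) := by positivity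
  have hℓ : (0 : ℝ) ≤ ℓ := Nat.cast_nonneg ℓ
  have c3 : 6 * e * ((∑ z ∈ J, ∑ k ∈ range N, (if ud k z ∧ t k z = k then (1 : ℝ) else 0)) +
      ∑ z ∈ J, ∑ k ∈ range N, (if ¬ ud k z ∧ ud (k + 1) z then (1 : ℝ) else 0)) ≤
      6 * e * (Kp * (ℓ + 4 * 2 ^ (N + 7)) + (ℓ + 2 * 2 ^ (N + 7))) :=
    mul_le_mul_of_nonneg_left (add_le_add c1 c2) (by positivity)
  refine (add_le_add le_rfl c3).trans ?_
  have c4 : 0 ≤ e * Kp * (ℓ + 4 * 2 ^ (N + 7)) := by positivity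
  have c5 : 0 ≤ e * 2 ^ (N + 7) := by positivity
  nlinarith

/-- **the power, the interval of a root** -/
theorem Z0_D (hR : Rgn (gr 7 s) gd Λ x0 ud) {Fj : Fin 2 → ℕ → ℤ → ℝ} (he : 0 ≤ e) (hK : 0 ≤ Kp)
    (hF : Fam2 (gr 7 s) ud Λ t Fj e Kp) (j : Fin 2) {w : ℤ} (hw : w ≤ 2 ^ 7) {N : ℕ} (hN : N ≤ Λ)
    {I : Finset ℤ} {a : ℤ} (hI : I ⊆ Ico a (a + 12 * 2 ^ N)) :
    ∑ k ∈ range N, ∑ z ∈ I, (if NT ud t w k z then Z0 ud t (Fj j) (k + 1) z ^ 2 else 0) ≤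
      3700 * (e * (Kp + 1)) * 2 ^ N := by
  have h1 := Z0_pow hR hF.lab (hF.en j) he hF.pack hK hw hN (I := I) (a := a)
    (ℓ := 12 * 2 ^ N) (by push_cast; exact hI)
  refine h1.trans ?_
  have h2 : 0 ≤ e * (Kp + 1) * 2 ^ N := by positivity
  have h3 : 7 * (e * (Kp + 1)) * (((12 * 2 ^ N : ℕ) : ℝ) + 4 * 2 ^ (N + 7)) =
      3668 * (e * (Kp + 1) * 2 ^ N) := by push_cast; ring
  rw [h3]
  linarith

/-! ### The energies on the lines -/

/-- **a line**: `u ↦ c + d u` on a set of integers of length `2 ^ N`, the scale `k ≤ N` -/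
theorem line_gen {φ : ℕ → ℤ → ℝ}
    (hφ : ∀ k y, ∑ v ∈ (gr 7 s).cube k y, φ k v ^ 2 ≤ e * 2 ^ (k + 7)) (he : 0 ≤ e) {d : ℤ}
    (hd : d ≠ 0) (hd3 : |d| ≤ 3) {k N : ℕ} (hk : k ≤ N) {X : Finset ℤ} {r : ℤ} (hX : X ⊆ iv N r)
    (c : ℤ) : ∑ u ∈ X, φ k (c + d * u) ^ 2 ≤ 259 * e * 2 ^ N := by
  have hinj : ∀ u ∈ X, ∀ v ∈ X, c + d * u = c + d * v → u = v := by
    intro u _ v _ h
    exact mul_left_cancel₀ hd (by linarith)
  have e1 : ∑ u ∈ X, φ k (c + d * u) ^ 2 =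
      ∑ v ∈ X.image (fun u => c + d * u), φ k v ^ 2 := by
    rw [sum_image hinj]
  rw [e1]
  have hp : (0 : ℤ) < 2 ^ N := by positivity
  obtain ⟨d1, d2⟩ := abs_le.1 hd3
  -- the image is in an interval of length `3 * 2 ^ N`
  obtain ⟨a, ha⟩ : ∃ a : ℤ, X.image (fun u => c + d * u) ⊆ Ico a (a + ((3 * 2 ^ N : ℕ) : ℤ)) := by
    rcases le_total 0 d with h | h
    · refine ⟨c + d * (2 ^ N * r), fun v hv => ?_⟩
      obtain ⟨u, hu, rfl⟩ := mem_image.1 hv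
      have h1 := hX hu
      unfold iv at h1
      rw [mem_Ico] at h1
      rw [mem_Ico]
      push_cast
      constructor <;> nlinarith [h1.1, h1.2]
    · refine ⟨c + d * (2 ^ N * r + 2 ^ N - 1), fun v hv => ?_⟩
      obtain ⟨u, hu, rfl⟩ := mem_image.1 hv
      have h1 := hX hu
      unfold iv at h1
      rw [mem_Ico] at h1
      rw [mem_Ico]
      push_cast
      constructor <;> nlinarith [h1.1, h1.2]
  refine (sum_le_sum_of_subset_of_nonneg ha fun _ _ _ => sq_nonneg _).trans ?_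
  refine (sum_Ico_one (s := s) (k := k) (fun z => sq_nonneg _) (hφ k) a _).trans ?_
  have h2 : (2 : ℝ) ^ (k + 7) ≤ 2 ^ (N + 7) := pow_le_pow_right₀ (by norm_num) (by omega)
  have h3 : (2 : ℝ) ^ (N + 7) = 128 * 2 ^ N := by ring
  push_cast
  have h4 : e * (3 * 2 ^ N + 2 * 2 ^ (k + 7)) ≤ e * (3 * 2 ^ N + 2 * (128 * 2 ^ N)) :=
    mul_le_mul_of_nonneg_left (by linarith) he
  linarith

theorem z0_cell (hR : Rgn (gr 7 s) gd Λ x0 ud) (hl : Lab (gr 7 s) Λ t)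
    (hen : ∀ k y, ud k y → dot ((gr 7 s).cube k y) (F (t k y)) (F (t k y)) ≤
      e * cd (gr 7 s) k y) (he : 0 ≤ e) (k : ℕ) (y : ℤ) :
    ∑ v ∈ (gr 7 s).cube k y, Z0 ud t F k v ^ 2 ≤ e * 2 ^ (k + 7) :=
  (sum_le_sum fun _ _ => Z0_sq_le _ _).trans (ys_cell hR hl hen he k y)

/-- the static function cut by the used cells -/
theorem cu_cell (hR : Rgn (gr 7 s) gd Λ x0 ud) {G : ℤ → ℝ} (hG : En (gr 7 s) ud G e)
    (he : 0 ≤ e) (k : ℕ) (y : ℤ) :
    ∑ v ∈ (gr 7 s).cube k y, (if ud k v then G v else 0) ^ 2 ≤ e * 2 ^ (k + 7) := by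
  by_cases h : ud k y
  · have h1 := hG k y h
    have h2 : cd (gr 7 s) k y = 2 ^ (k + 7) := by unfold cd; exact card_cube y
    rw [h2] at h1
    refine le_trans (le_of_eq ?_) h1
    unfold dot
    refine sum_congr rfl fun v hv => ?_
    rw [if_pos ((hR.const k y v hv).2 h)]
    ring
  · rw [sum_eq_zero]
    · positivity
    · intro v hv
      rw [if_neg fun h' => h ((hR.const k y v hv).1 h')]
      ring

/-- **`L` of `H38/Pow`** -/
theorem line_L {φ : ℕ → ℤ → ℝ}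
    (hφ : ∀ k y, ∑ v ∈ (gr 7 s).cube k y, φ k v ^ 2 ≤ e * 2 ^ (k + 7)) (he : 0 ≤ e) {d0 : ℤ}
    (hd : d0 ≠ 0) (hd3 : |d0| ≤ 3) {k N : ℕ} (hk : k < N) {X0 : Finset ℤ} {r : ℤ}
    (hX : X0 ⊆ iv N r) (t0 d d' x y : ℤ) :
    ∑ u ∈ X0, φ (k + 1) (ln (t0 + d0 * u) d d' x y) ^ 2 ≤ 259 * e * 2 ^ N := by
  have h1 := line_gen hφ he hd hd3 (show k + 1 ≤ N by omega) hX (t0 + d * x + d' * y)
  refine le_trans (le_of_eq (sum_congr rfl fun u _ => ?_)) h1
  unfold ln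
  congr 2
  ring

/-- **`col` / `row`** -/
theorem line_col {φ : ℕ → ℤ → ℝ}
    (hφ : ∀ k y, ∑ v ∈ (gr 7 s).cube k y, φ k v ^ 2 ≤ e * 2 ^ (k + 7)) (he : 0 ≤ e) {d : ℤ}
    (hd : d ≠ 0) (hd3 : |d| ≤ 3) (k : ℕ) (n c : ℤ) :
    ∑ u ∈ iv k n, φ k (c + d * u) ^ 2 ≤ 259 * e * 2 ^ k :=
  line_gen hφ he hd hd3 le_rfl (subset_refl _) c

/-! ### The hypotheses of `H540/RPart` -/

/-- an interval which contains the values of the form on a root -/
def lI (K : ℕ) (R S M0 t0 d0 d d' : ℤ) : Finset ℤ :=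
  Ico (t0 + (d0 * M0 + d * R + d' * S) * 2 ^ K - 9 * 2 ^ K)
    (t0 + (d0 * M0 + d * R + d' * S) * 2 ^ K - 9 * 2 ^ K + 18 * 2 ^ K)

theorem off_le {K : ℕ} {d r x : ℤ} (hd : |d| ≤ 3) (hx : x ∈ iv K r) :
    d * r * 2 ^ K - 3 * (2 ^ K - 1) ≤ d * x ∧ d * x ≤ d * r * 2 ^ K + 3 * (2 ^ K - 1) := by
  unfold iv at hx
  rw [mem_Ico] at hx
  obtain ⟨d1, d2⟩ := abs_le.1 hd
  have hp : (1 : ℤ) ≤ 2 ^ K := one_le_pow₀ (by norm_num)
  obtain ⟨u, hu⟩ : ∃ u : ℤ, x = 2 ^ K * r + u := ⟨x - 2 ^ K * r, by ring⟩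
  subst hu
  have h1 : 0 ≤ u := by linarith [hx.1]
  have h2 : u ≤ 2 ^ K - 1 := by linarith [hx.2]
  have e : d * (2 ^ K * r + u) = d * r * 2 ^ K + d * u := by ring
  rw [e]
  constructor <;> nlinarith

theorem mem_lI {K : ℕ} {R S M0 t0 d0 d d' x0 x y : ℤ} (h0 : |d0| ≤ 3) (h1 : |d| ≤ 3)
    (h2 : |d'| ≤ 3) (hx0 : x0 ∈ iv K M0) (hx : x ∈ iv K R) (hy : y ∈ iv K S) :
    ln (t0 + d0 * x0) d d' x y ∈ lI K R S M0 t0 d0 d d' := by
  have a0 := off_le h0 hx0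
  have a1 := off_le h1 hx
  have a2 := off_le h2 hy
  unfold lI ln
  rw [mem_Ico]
  have hp : (0 : ℤ) < 2 ^ K := by positivity
  constructor <;> linarith [a0.1, a0.2, a1.1, a1.2, a2.1, a2.2]

/-- **A slot cut by the used cells satisfies `LineH`.** -/
theorem lineH_slot (hR : Rgn (gr 7 s) gd Λ x0 ud) (hl : Lab (gr 7 s) Λ t)
    (hen : ∀ k y, ud k y → dot ((gr 7 s).cube k y) (F (t k y)) (F (t k y)) ≤
      e * cd (gr 7 s) k y) (he : 0 ≤ e)
    (hp : ∀ k y, ud k y → tops (gr 7 s) ud t k y ≤ Kp * cd (gr 7 s) k y) (hK : 0 ≤ Kp)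
    {K : ℕ} (hKL : K ≤ Λ) {R S M0 : ℤ} {X0 : Finset ℤ} (hX : X0 ⊆ iv K M0) (t0 : ℤ)
    {d0 d d' : ℤ} (n0 : d0 ≠ 0) (n2 : d' ≠ 0) (b0 : |d0| ≤ 3) (b1 : |d| ≤ 3) (b2 : |d'| ≤ 3) :
    LineH K R S X0 t0 d0 d d' (CT ud t) (NT ud t 6) (lI K R S M0 t0 d0 d d') (Z0 ud t F)
      (3710 * (e * (Kp + 1)) * 2 ^ K) (259 * e * 2 ^ K) where
  nz := n2
  z := Z0_zero
  hT k hk y h := Z0_step hR hl (by omega) y h
  hT' k _ y y' h hy := NT_near (by linarith) k y y' h hy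
  hI u hu x hx y hy := mem_lI b0 b1 b2 (hX hu) hx hy
  hD := by
    have h1 := Z0_pow hR hl hen he hp hK (w := 6) (by norm_num) hKL
      (I := lI K R S M0 t0 d0 d d') (a := t0 + (d0 * M0 + d * R + d' * S) * 2 ^ K - 9 * 2 ^ K)
      (ℓ := 18 * 2 ^ K) (by unfold lI; push_cast; exact subset_refl _)
    refine h1.trans (le_of_eq ?_)
    push_cast
    ring
  hL k hk x _ y _ := line_L (z0_cell hR hl hen he) he n0 b0 hk hX t0 d d' x y
  L0 := by positivity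

/-- **A block slot satisfies `LineH`.** -/
theorem lineH_fam (hR : Rgn (gr 7 s) gd Λ x0 ud) {Fj : Fin 2 → ℕ → ℤ → ℝ} (he : 0 ≤ e)
    (hK : 0 ≤ Kp) (hF : Fam2 (gr 7 s) ud Λ t Fj e Kp) (j : Fin 2) {K : ℕ} (hKL : K ≤ Λ)
    {R S M0 : ℤ} {X0 : Finset ℤ} (hX : X0 ⊆ iv K M0) (t0 : ℤ) {d0 d d' : ℤ} (n0 : d0 ≠ 0)
    (n2 : d' ≠ 0) (b0 : |d0| ≤ 3) (b1 : |d| ≤ 3) (b2 : |d'| ≤ 3) :
    LineH K R S X0 t0 d0 d d' (CT ud t) (NT ud t 6) (lI K R S M0 t0 d0 d d') (Z0 ud t (Fj j))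
      (3710 * (e * (Kp + 1)) * 2 ^ K) (259 * e * 2 ^ K) :=
  lineH_slot hR hF.lab (hF.en j) he hF.pack hK hKL hX t0 n0 n2 b0 b1 b2

/-- `cY`, `cX` of `H540/RPart` -/
theorem col_fam (hR : Rgn (gr 7 s) gd Λ x0 ud) {Fj : Fin 2 → ℕ → ℤ → ℝ} (he : 0 ≤ e)
    (hF : Fam2 (gr 7 s) ud Λ t Fj e Kp) (j : Fin 2) {d : ℤ} (n0 : d ≠ 0) (b0 : |d| ≤ 3)
    (k : ℕ) (c n : ℤ) :
    ∑ u ∈ iv k n, Z0 ud t (Fj j) k (c + d * u) ^ 2 ≤ 259 * e * 2 ^ k :=
  line_col (z0_cell hR hF.lab (hF.en j) he) he n0 b0 k n c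

/-- the static function cut by the used cells -/
def cuF (ud : ℕ → ℤ → Prop) (G : ℤ → ℝ) (k : ℕ) (y : ℤ) : ℝ := if ud k y then G y else 0

/-- `hTG` of `H540/RPart`: the cut function changes at the exits only -/
theorem cuF_step (hR : Rgn (gr 7 s) gd Λ x0 ud) {G : ℤ → ℝ} {k : ℕ} (hk : k < Λ) (y : ℤ)
    (h : ¬ (ud (k + 1) y ∧ ¬ ud k y)) : cuF ud G (k + 1) y = cuF ud G k y := by
  unfold cuF
  by_cases h1 : ud k y
  · rw [if_pos h1, if_pos (hR.up k hk y h1)]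
  · rw [if_neg h1, if_neg fun h2 => h ⟨h2, h1⟩]

/-- `cG` of `H540/RPart` -/
theorem row_cuF (hR : Rgn (gr 7 s) gd Λ x0 ud) {G : ℤ → ℝ} (hG : En (gr 7 s) ud G e)
    (he : 0 ≤ e) {d : ℤ} (n0 : d ≠ 0) (b0 : |d| ≤ 3) (k : ℕ) (c n : ℤ) :
    ∑ u ∈ iv k n, cuF ud G k (c + d * u) ^ 2 ≤ 259 * e * 2 ^ k :=
  line_col (φ := cuF ud G) (cu_cell hR hG he) he n0 b0 k n c

end

end Vale.Agent.P141.H379
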