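import Vale.Agent.P141.H444.LimP

/-!
# P141: the limit of the levels for functions which are uniform up to a small error in `L²`

* `abs_nd_le_of_abs`: crude bound of a node form by the values;
* `lim_ndX`: one node, slot `0` = (uniform of level `δ j`) + (energy at most `η j * 2 ^ k`), all
  energies bounded, `δ j → 0`, `η j → 0`: the node forms tend to `0`.
-/

namespace Vale.Agent.P141.H379

open Finset
open Vale.Agent.P141.H315 (Grid dot)
open Vale.Agent.P141.PL (Pt el fc lift Bx iv)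
open Vale.Agent.P141.PL.H315 (le cube3 Tri)
open Vale.Agent.P141.PL.H314 (nd Win nd_congr nd_eq nd_add4 ell_mem_Win)
open Vale.Agent.P141.PL.H95 (gr gr_cube)
open Vale.Agent.P141.PL.H620 (loc1 nn pts sg ell pt)
open Vale.Agent.P141.H782 (abs_le_of_dot)
open Vale.Agent.P141.H922 (wP)
open Vale.Agent.P141.H444 (nd_limP)

noncomputable section

theorem abs_sg_le (k i : ℕ) : |sg k i| ≤ 1 := by
  unfold sg; split_ifs <;> simp

/-- a crude bound -/
theorem abs_nd_le_of_abs {o : ℤ} (ho : o = 1 ∨ o = -1) (k : ℕ) (v : ℤ) {f : Fin 4 → ℤ → ℝ}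
    {b : Fin 4 → ℝ} (hb : ∀ i, 0 ≤ b i) (hf : ∀ i, ∀ y ∈ Win k v, |f i y| ≤ b i) :
    |nd o k v f| ≤ (pts k).card * ∏ i, b i := by
  unfold nd loc1
  have h4 : |((4 : ℝ) ^ k)⁻¹| ≤ 1 := by
    rw [abs_of_pos (by positivity)]
    exact inv_le_one_of_one_le₀ (one_le_pow₀ (by norm_num))
  have h2 : |((2 : ℝ) ^ k)⁻¹| ≤ 1 := by
    rw [abs_of_pos (by positivity)]
    exact inv_le_one_of_one_le₀ (one_le_pow₀ (by norm_num))
  have hS : |∑ x ∈ pts k, (∏ i, sg k (x i)) * ∏ j, f j (ell j (pt k (nn o v 0 0) x))| ≤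
      (pts k).card * ∏ i, b i := by
    refine (abs_sum_le_sum_abs _ _).trans ?_
    refine (sum_le_card_nsmul _ _ (∏ i, b i) fun x hx => ?_).trans (le_of_eq (by rw [nsmul_eq_mul]))
    rw [abs_mul, abs_prod, abs_prod]
    have h1 : ∏ i, |sg k (x i)| ≤ 1 :=
      prod_le_one (fun _ _ => abs_nonneg _) fun i _ => abs_sg_le k (x i)
    have h3 : ∏ j, |f j (ell j (pt k (nn o v 0 0) x))| ≤ ∏ i, b i :=
      prod_le_prod (fun _ _ => abs_nonneg _) fun j _ => hf j _ (ell_mem_Win ho hx 0 0 j)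
    calc _ ≤ 1 * ∏ i, b i :=
          mul_le_mul h1 h3 (prod_nonneg fun _ _ => abs_nonneg _) zero_le_one
      _ = _ := one_mul _
  have hn : 0 ≤ ((pts k).card : ℝ) * ∏ i, b i :=
    mul_nonneg (Nat.cast_nonneg _) (prod_nonneg fun i _ => hb i)
  rw [abs_mul, abs_mul]
  calc |((4 : ℝ) ^ k)⁻¹| * (|((2 : ℝ) ^ k)⁻¹| * _) ≤ 1 * (1 * ((pts k).card * ∏ i, b i)) :=
        mul_le_mul h4 (mul_le_mul h2 hS (abs_nonneg _) zero_le_one)
          (mul_nonneg (abs_nonneg _) (abs_nonneg _)) zero_le_one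
    _ = _ := by ring

/-- **The limit with an error in `L²`.** -/
theorem lim_ndX {o : ℤ} (ho : o = 1 ∨ o = -1) {k : ℕ} (hk : 1 ≤ k) {v s : ℤ}
    (hW : Win k v ⊆ (gr 7 s).cube k (le (k, v))) {δ η : ℕ → ℝ} (hδ : ∀ j, 0 ≤ δ j)
    (hlim : ∀ ε : ℝ, 0 < ε → ∃ J, ∀ j, J ≤ j → δ j ≤ ε)
    (hlim' : ∀ ε : ℝ, 0 < ε → ∃ J, ∀ j, J ≤ j → η j ≤ ε) {M : ℝ} {j0 : ℕ}
    {f : ℕ → Fin 4 → ℤ → ℝ}
    (hu : ∀ j, j0 ≤ j → ∃ X : ℤ → ℝ, dot ((gr 7 s).cube k (le (k, v))) X X ≤ η j * 2 ^ k ∧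
      ∀ t : Pt × Tri, |dot ((gr 7 s).cube k (le (k, v))) (f j 0 - X)
        (Vale.Agent.P141.PL.H318.a1 (fc 0) k t)| ≤ wP (δ j) (cube3 k t.1) t.2)
    (hf : ∀ j, j0 ≤ j → ∀ i : Fin 4, dot ((gr 7 s).cube k (le (k, v))) (f j i) (f j i) ≤ M)
    {ε : ℝ} (hε : 0 < ε) : ∃ J, ∀ j, J ≤ j → |nd o k v (f j)| ≤ ε := by
  set B : ℝ := √M with hB
  have hB0 : 0 ≤ B := Real.sqrt_nonneg _
  set A : ℝ := (pts k).card * B ^ 3 with hA
  have hA0 : 0 ≤ A := mul_nonneg (Nat.cast_nonneg _) (pow_nonneg hB0 3)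
  have hA1 : 0 < A + 1 := by linarith
  obtain ⟨J, hJ⟩ := hlim (ε / 2 / (3 * (2 ^ k * B ^ 3) + 1)) (by positivity)
  obtain ⟨J', hJ'⟩ := hlim' ((ε / 2 / (A + 1)) ^ 2 / 2 ^ k)
    (div_pos (pow_pos (div_pos (by linarith) hA1) 2) (by positivity))
  refine ⟨max (max J J') j0, fun j hj => ?_⟩
  have hj0 : j0 ≤ j := (le_max_right _ _).trans hj
  have hjJ : J ≤ j := (le_max_left _ _).trans ((le_max_left _ _).trans hj)
  have hjJ' : J' ≤ j := (le_max_right _ _).trans ((le_max_left _ _).trans hj)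
  obtain ⟨X, hX, hu'⟩ := hu j hj0
  have e0 : f j = ![f j 0, f j 1, f j 2, f j 3] := by
    funext i; fin_cases i <;> rfl
  have hadd := (nd_add4 o k v).sub0 (f j 0) X (f j 1) (f j 2) (f j 3)
  have e1 : nd o k v (f j) = nd o k v ![f j 0 - X, f j 1, f j 2, f j 3] +
      nd o k v ![X, f j 1, f j 2, f j 3] := by
    have h0 : nd o k v (f j) = nd o k v ![f j 0, f j 1, f j 2, f j 3] := by rw [← e0]
    rw [h0, hadd]; ring
  -- the uniform part
  have h1 : |nd o k v ![f j 0 - X, f j 1, f j 2, f j 3]| ≤ ε / 2 := by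
    have key := nd_limP ho hk hW (hδ j) hB0 (f := ![f j 0 - X, f j 1, f j 2, f j 3]) hu'
      (fun i hi y hy => by
        have h5 : ∀ m : Fin 4, |f j m y| ≤ B := fun m => abs_le_of_dot (hf j hj0 m) (hW hy)
        match i, hi with
        | 0, hi => exact absurd rfl hi
        | 1, _ => exact h5 1
        | 2, _ => exact h5 2
        | 3, _ => exact h5 3)
    refine key.trans ?_
    have h2 := hJ j hjJ
    have h3 : 0 ≤ 3 * (2 ^ k * B ^ 3) := by positivity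
    calc 3 * (2 ^ k * δ j * B ^ 3) = δ j * (3 * (2 ^ k * B ^ 3)) := by ring
      _ ≤ ε / 2 / (3 * (2 ^ k * B ^ 3) + 1) * (3 * (2 ^ k * B ^ 3)) :=
          mul_le_mul_of_nonneg_right h2 h3
      _ ≤ ε / 2 := by
        rw [div_mul_eq_mul_div, div_le_iff₀ (by positivity)]
        nlinarith
  -- the error
  have h2 : |nd o k v ![X, f j 1, f j 2, f j 3]| ≤ ε / 2 := by
    set x : ℝ := ε / 2 / (A + 1) with hx
    have hx0 : 0 ≤ x := div_nonneg (by linarith) hA1.le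
    have hXx : ∀ y ∈ Win k v, |X y| ≤ x := by
      intro y hy
      refine (abs_le_of_dot hX (hW hy)).trans ?_
      refine Real.sqrt_le_iff.2 ⟨hx0, ?_⟩
      have h5 := hJ' j hjJ'
      have h6 : (0 : ℝ) < 2 ^ k := by positivity
      rw [le_div_iff₀ h6] at h5
      exact h5
    have key := abs_nd_le_of_abs ho k v (f := ![X, f j 1, f j 2, f j 3]) (b := ![x, B, B, B])
      (fun i => match i with
        | 0 => hx0
        | 1 => hB0
        | 2 => hB0
        | 3 => hB0)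
      (fun i y hy => by
        have h5 : ∀ m : Fin 4, |f j m y| ≤ B := fun m => abs_le_of_dot (hf j hj0 m) (hW hy)
        match i with
        | 0 => exact hXx y hy
        | 1 => exact h5 1
        | 2 => exact h5 2
        | 3 => exact h5 3)
    refine key.trans ?_
    have e2 : ∏ i, (![x, B, B, B] : Fin 4 → ℝ) i = x * B ^ 3 := by
      rw [Fin.prod_univ_four]
      show x * B * B * B = _
      ring
    rw [e2]
    calc ((pts k).card : ℝ) * (x * B ^ 3) = x * A := by rw [hA]; ring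
      _ ≤ ε / 2 := by
        rw [hx, div_mul_eq_mul_div, div_le_iff₀ hA1]
        nlinarith
  rw [e1]
  refine (abs_add_le _ _).trans ?_
  linarith

end

end Vale.Agent.P141.H379
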