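import Mathlib

/-!
# P141, line (A): calculus of monomials `t ^ a * s ^ b * r ^ c`

`0 < t ≤ 1`, `0 < s`, `1 ≤ r`.  Products, powers, square roots and inverses of monomials,
monotonicity in the exponents of `t` and `r`, and logarithms.
-/

namespace Vale.Agent.P141.H379

noncomputable section

/-- the monomial `t ^ a * s ^ b * r ^ c` -/
def m3 (t s r a b c : ℝ) : ℝ := t ^ a * s ^ b * r ^ c

variable {t s r : ℝ}

theorem m3_pos (ht : 0 < t) (hs : 0 < s) (hr : 0 < r) (a b c : ℝ) : 0 < m3 t s r a b c := by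
  unfold m3; positivity

theorem m3_nonneg (ht : 0 ≤ t) (hs : 0 ≤ s) (hr : 0 ≤ r) (a b c : ℝ) : 0 ≤ m3 t s r a b c := by
  unfold m3; positivity

theorem m3_zero : m3 t s r 0 0 0 = 1 := by
  unfold m3; simp

theorem m3_t : m3 t s r 1 0 0 = t := by unfold m3; simp

theorem m3_s : m3 t s r 0 1 0 = s := by unfold m3; simp

theorem m3_r : m3 t s r 0 0 1 = r := by unfold m3; simp

theorem m3_ta (a : ℝ) : m3 t s r a 0 0 = t ^ a := by unfold m3; simp

theorem m3_sa (b : ℝ) : m3 t s r 0 b 0 = s ^ b := by unfold m3; simp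

theorem m3_ra (c : ℝ) : m3 t s r 0 0 c = r ^ c := by unfold m3; simp

theorem m3_sqrt_s : m3 t s r 0 (1 / 2) 0 = √s := by
  rw [m3_sa, Real.sqrt_eq_rpow]

theorem m3_mul (ht : 0 < t) (hs : 0 < s) (hr : 0 < r) (a b c a' b' c' : ℝ) :
    m3 t s r a b c * m3 t s r a' b' c' = m3 t s r (a + a') (b + b') (c + c') := by
  unfold m3
  rw [Real.rpow_add ht, Real.rpow_add hs, Real.rpow_add hr]
  ring

theorem m3_inv (ht : 0 < t) (hs : 0 < s) (hr : 0 < r) (a b c : ℝ) :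
    (m3 t s r a b c)⁻¹ = m3 t s r (-a) (-b) (-c) := by
  unfold m3
  rw [Real.rpow_neg ht.le, Real.rpow_neg hs.le, Real.rpow_neg hr.le, mul_inv, mul_inv]

theorem m3_div (ht : 0 < t) (hs : 0 < s) (hr : 0 < r) (a b c a' b' c' : ℝ) :
    m3 t s r a b c / m3 t s r a' b' c' = m3 t s r (a - a') (b - b') (c - c') := by
  rw [div_eq_mul_inv, m3_inv ht hs hr, m3_mul ht hs hr, sub_eq_add_neg, sub_eq_add_neg,
    sub_eq_add_neg]

theorem m3_rpow (ht : 0 < t) (hs : 0 < s) (hr : 0 < r) (a b c x : ℝ) :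
    m3 t s r a b c ^ x = m3 t s r (a * x) (b * x) (c * x) := by
  unfold m3
  rw [Real.mul_rpow (by positivity) (by positivity), Real.mul_rpow (by positivity) (by positivity),
    ← Real.rpow_mul ht.le, ← Real.rpow_mul hs.le, ← Real.rpow_mul hr.le]

theorem m3_pow (ht : 0 < t) (hs : 0 < s) (hr : 0 < r) (a b c : ℝ) (n : ℕ) :
    m3 t s r a b c ^ n = m3 t s r (a * n) (b * n) (c * n) := by
  rw [← Real.rpow_natCast, m3_rpow ht hs hr]

theorem m3_sqrt (ht : 0 < t) (hs : 0 < s) (hr : 0 < r) (a b c : ℝ) :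
    √(m3 t s r a b c) = m3 t s r (a / 2) (b / 2) (c / 2) := by
  rw [Real.sqrt_eq_rpow, m3_rpow ht hs hr]
  congr 1 <;> ring

/-- smaller for a larger exponent of `t` and a smaller exponent of `r` -/
theorem m3_mono (ht : 0 < t) (ht1 : t ≤ 1) (hs : 0 ≤ s) (hr : 1 ≤ r) {a a' c c' : ℝ} (b : ℝ)
    (ha : a' ≤ a) (hc : c ≤ c') : m3 t s r a b c ≤ m3 t s r a' b c' := by
  unfold m3
  have e1 : t ^ a ≤ t ^ a' := Real.rpow_le_rpow_of_exponent_ge ht ht1 ha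
  have e2 : r ^ c ≤ r ^ c' := Real.rpow_le_rpow_of_exponent_le hr hc
  have e3 : 0 ≤ s ^ b := Real.rpow_nonneg hs _
  have e4 : 0 ≤ t ^ a' := Real.rpow_nonneg ht.le _
  have e5 : 0 ≤ r ^ c := Real.rpow_nonneg (by linarith) _
  gcongr

/-- a sum of two monomials with the same power of `s` -/
theorem m3_add_le (ht : 0 < t) (ht1 : t ≤ 1) (hs : 0 ≤ s) (hr : 1 ≤ r) {a a' a'' c c' c'' : ℝ}
    (b : ℝ) (ha : a'' ≤ a) (ha' : a'' ≤ a') (hc : c ≤ c'') (hc' : c' ≤ c'') :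
    m3 t s r a b c + m3 t s r a' b c' ≤ 2 * m3 t s r a'' b c'' := by
  have h1 := m3_mono (a' := a'') (c' := c'') ht ht1 hs hr b ha hc
  have h2 := m3_mono (a' := a'') (c' := c'') ht ht1 hs hr b ha' hc'
  linarith

/-! ### logarithms -/

/-- `log` against a power: `1 + log x ≤ (1 + ε⁻¹) x ^ ε` for `x ≥ 1`. -/
theorem one_add_log_le {x ε : ℝ} (hx : 1 ≤ x) (hε : 0 < ε) :
    1 + Real.log x ≤ (1 + ε⁻¹) * x ^ ε := by
  have h0 : (0 : ℝ) ≤ x := by linarith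
  have h1 := Real.log_le_rpow_div h0 hε
  have h2 : 1 ≤ x ^ ε := Real.one_le_rpow hx hε.le
  have h3 : x ^ ε / ε = ε⁻¹ * x ^ ε := by rw [div_eq_inv_mul]
  rw [h3] at h1
  nlinarith

/-- the logarithm of `r ^ q / t ^ p` costs a small power -/
theorem log_mon_le (ht : 0 < t) (ht1 : t ≤ 1) (hr : 1 ≤ r) {p q ε : ℝ} (hp : 0 ≤ p)
    (hq : 0 ≤ q) (hε : 0 < ε) :
    1 + Real.log (t ^ (-p) * r ^ q) ≤ (1 + ε⁻¹) * (t ^ (-(p * ε)) * r ^ (q * ε)) := by
  have h1 : 1 ≤ t ^ (-p) := by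
    rw [Real.rpow_neg ht.le]
    exact one_le_inv_iff₀.2 ⟨Real.rpow_pos_of_pos ht _, Real.rpow_le_one ht.le ht1 hp⟩
  have h2 : 1 ≤ r ^ q := Real.one_le_rpow hr hq
  have h3 : 1 ≤ t ^ (-p) * r ^ q := by nlinarith
  have h := one_add_log_le h3 hε
  have hr0 : 0 < r := by linarith
  rw [Real.mul_rpow (by positivity) (by positivity), ← Real.rpow_mul ht.le,
    ← Real.rpow_mul hr0.le, neg_mul] at h
  exact h

/-- the same in monomials, with any number of factors -/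
theorem log_mon_pow_le (ht : 0 < t) (ht1 : t ≤ 1) (hr : 1 ≤ r) {p q ε : ℝ} (hp : 0 ≤ p)
    (hq : 0 ≤ q) (hε : 0 < ε) (n : ℕ) :
    (1 + Real.log (t ^ (-p) * r ^ q)) ^ n ≤
      (1 + ε⁻¹) ^ n * m3 t s r (-(p * ε * n)) 0 (q * ε * n) := by
  have hr0 : 0 < r := by linarith
  have h0 : 0 ≤ 1 + Real.log (t ^ (-p) * r ^ q) := by
    have h1 : 1 ≤ t ^ (-p) := by
      rw [Real.rpow_neg ht.le]
      exact one_le_inv_iff₀.2 ⟨Real.rpow_pos_of_pos ht _, Real.rpow_le_one ht.le ht1 hp⟩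
    have h2 : 1 ≤ r ^ q := Real.one_le_rpow hr hq
    have h3 : 1 ≤ t ^ (-p) * r ^ q := by nlinarith
    have := Real.log_nonneg h3
    linarith
  refine (pow_le_pow_left₀ h0 (log_mon_le ht ht1 hr hp hq hε) n).trans (le_of_eq ?_)
  rw [mul_pow, mul_pow, ← Real.rpow_natCast (t ^ (-(p * ε))) n, ← Real.rpow_mul ht.le,
    ← Real.rpow_natCast (r ^ (q * ε)) n, ← Real.rpow_mul hr0.le]
  unfold m3
  rw [Real.rpow_zero, mul_one, neg_mul]

end

end Vale.Agent.P141.H379
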