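import Vale.Agent.P141.H379.WinT
import Vale.Agent.P141.H501.L4
import Vale.Agent.P141.H935.TwoTR
import Vale.Agent.P141.H213.WinStep0

/-!
# P141, line W, module PROC: the term `(GP; G, X, X)` of one joint window of one step

`UeJ`: the END values; `WJ`: the joint window; `l4_J`: `H501.l4_win` in the letters of `Top` and in
the form of the hypothesis `h4` of `H213.win_step0`.
-/

namespace Vale.Agent.P141.H379

open Finset Function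
open Vale.Agent.P141.H315 (Grid dot)
open Vale.Agent.P141.PL.H318 (CSys)
open Vale.Agent.P141.PL.H95 (gr shf rst)
open Vale.Agent.P141.PL.H855 (N4 TR L2W PayU EndStm)
open Vale.Agent.P141.H347 (LW cd Dat2 Root2)
open Vale.Agent.P141.H782 (gb used used_congr LSys LSys.S LSys.w)
open Vale.Agent.P141.H8 (Rgn Lab Wr En Un st T4 K1 ee MM)
open Vale.Agent.P141.H297 (Paths Mix tp Ue cd_pos)
open Vale.Agent.P141.H610 (BoxHyp)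
open Vale.Agent.P141.H213 (rol rol_self rol_of_ne)
open Vale.Agent.P141.H501 (l4_win numL4)
open Vale.Agent.P141.H935 (ordr ordr_symm T4_ordr)

noncomputable section

open scoped Classical

theorem un_sub {X ι : Type*} {g : Grid X} {S : CSys g ι} {C C' : ℝ} {ud : ℕ → X → Prop}
    {F G : X → ℝ} (hF : Un S C ud F) (hG : Un S C' ud G) :
    Un S (C + C') ud (fun y => F y - G y) := by
  intro k y hy i
  have h1 := hF k y hy i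
  have h2 := hG k y hy i
  have h3 : dot (g.cube k y) (fun y => F y - G y) (S.a k i) =
      dot (g.cube k y) F (S.a k i) - dot (g.cube k y) G (S.a k i) := by
    unfold dot
    rw [← sum_sub_distrib]
    exact sum_congr rfl fun u _ => by ring
  rw [h3, add_mul]
  exact (abs_sub _ _).trans (add_le_add h1 h2)

theorem un_mono {X ι : Type*} {g : Grid X} {S : CSys g ι} {C C' : ℝ} {ud : ℕ → X → Prop}
    {F : X → ℝ} (hF : Un S C ud F) (h : C ≤ C') : Un S C' ud F := fun k y hy i =>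
  (hF k y hy i).trans (mul_le_mul_of_nonneg_right h (S.W_nonneg _ _ _))

theorem en_sub' {X : Type*} {g : Grid X} {ud : ℕ → X → Prop} {F G : X → ℝ} {c d : ℝ}
    (h : En g ud F c) (h' : En g ud G d) : En g ud (fun y => F y - G y) (2 * c + 2 * d) :=
  Vale.Agent.P141.H610.en_sub h h'

section

variable {n : ℕ} {ι : Type} (𝒮 : LSys n ι) (K : ℕ) (V : ℤ) (f : Fin 4 → ℤ → ℝ) (j : ℕ) (b : Bool)

/-- the END values of the joint windows of one step -/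
def UeJ (e0 C2 : ℝ) (c : JP) (Λ : ℕ) : ℤ → ℝ :=
  Ue (wJ 𝒮 j b) K (used n K V f b) (VJ 𝒮 K V f j b) (HJ 𝒮 K V f j b) (rJ 𝒮 K V f j b) e0 C2 c Λ

/-- the joint window of one step with the top `(Λ, z)` -/
abbrev WJ (e0 C2 : ℝ) (Λ : ℕ) (z : ℤ) : ℕ → ℤ → Prop :=
  Wr (gb n b) (used n K V f b) (tpJ 𝒮 K V f j b e0 C2) Λ z

/-- the path in the slot `m` of the role `i` -/
def cj (i m : Fin 4) : JP := (decide (m < i), m)

theorem rlJ_rol (i : Fin 4) : rlJ 𝒮 K V f j b i =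
    rol i (cj i) ((false, i) : JP) ((true, i) : JP) (VJ 𝒮 K V f j b) := rlJ_upd 𝒮 K V f j b i

end

variable {n : ℕ} {ι : Type} {𝒮 : LSys n ι} {K : ℕ} {V : ℤ} {f : Fin 4 → ℤ → ℝ} {o : ℤ}
  {𝒩 : Finset (ℕ × ℤ)} {j : ℕ} {b : Bool}

/-- the END values are uniform for the systems `UA` -/
theorem un_UeJ {Cm : ℝ} (hM : ∀ c, Mix (SJ 𝒮 j b c) Cm) {e0 C2 : ℝ} {Λ : ℕ} (hΛ : Λ ≤ K) (z : ℤ)
    {κ : Type*} {UA : Fin 4 → CSys (gb n b) κ} {Cu : ℝ}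
    (hU : ∀ (c : JP) ud F, Un (SJ 𝒮 j b c) Cm ud F → Un (UA c.2) Cu ud F) (c : JP) :
    Un (UA c.2) Cu (WJ 𝒮 K V f j b e0 C2 Λ z) (UeJ 𝒮 K V f j b e0 C2 c Λ) :=
  hU c _ _ (H610.un_Ue (paths_step 𝒮 K V f j b) hΛ c (hM c) z)

/-- the local energy of the END values -/
theorem en_UeJ {e0 C2 : ℝ} {Λ : ℕ} (hΛ : Λ ≤ K) (z : ℤ) (c : JP) :
    En (gb n b) (WJ 𝒮 K V f j b e0 C2 Λ z) (UeJ 𝒮 K V f j b e0 C2 c Λ) 32 := by
  have h := H610.en_Ue (paths_step 𝒮 K V f j b) hΛ (e' := e0) (C2 := C2) c z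
  have e1 : (8 : ℝ) * 4 = 32 := by norm_num
  rw [e1] at h
  exact h

/-- **The term `(GP; G, X, X)`** of one joint window of one step. -/
theorem l4_J (hd : Dat2 n f o K V 𝒩) (𝒞 : Finset (ℕ × ℤ)) {Cm : ℝ}
    (hM : ∀ c, Mix (SJ 𝒮 j b c) Cm) (hC : 0 ≤ Cm) {e0 C2 : ℝ} (he0 : 0 < e0) (hC2 : 0 ≤ C2)
    {Λ : ℕ} (hΛ : Λ ≤ K) {z : ℤ} (hz : used n K V f b Λ z)
    (ht : tpJ 𝒮 K V f j b e0 C2 Λ z = Λ)
    {κ : Type*} {UA : Fin 4 → CSys (gb n b) κ} {Cu C1 CP Cg : ℝ}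
    (hU : ∀ (c : JP) ud F, Un (SJ 𝒮 j b c) Cm ud F → Un (UA c.2) Cu ud F)
    (hCu : 2 * Cu ≤ C1) (hC1 : 4 * (4 * (2 * C2 + 3) + 2 * (1 + 2 * Cm)) ≤ C1)
    (hC1' : 128 ≤ C1) (hCP : 0 ≤ CP)
    (hb : BoxHyp (nvF hd b 𝒞) (WJ 𝒮 K V f j b e0 C2 Λ z) CP) (hCg : 0 ≤ Cg)
    {ι' : Type*} {R : ℕ → Fin 4 → CSys (gb n b) ι'} {wR : ∀ i m, LW (R i m)} {m : ℕ}
    (hMR : ∀ i < m, ∀ l, Mix (R i l) Cg) {τ E : ℝ} (hτ : 0 < τ)
    (hτ1 : τ ≤ 1) (hE : 0 < E) (hE0 : (4 * (2 * C2 + 3) + 2 * (1 + 2 * Cm)) * e0 ≤ E)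
    {c2 c3 : ℕ → ℝ} (hc2 : ∀ i < m, 0 ≤ c2 i) (hc3 : ∀ i < m, 0 ≤ c3 i)
    (H2 : ∀ i < m, ∀ L', PayU (nvF hd b 𝒞) (WJ 𝒮 K V f j b e0 C2 Λ z) L' (wR i) UA UA
      C1 C1 C1 C1 (K1 2 Cg * ee 2 Cg τ E i) (c2 i))
    (H3o : ∀ i < m, PayU (nvF hd b 𝒞) (WJ 𝒮 K V f j b e0 C2 Λ z) K
      (fun l => wJ 𝒮 j b (false, l)) UA (R i) C1 Cg C1 (K1 2 Cg * ee 2 Cg τ E i)
      (K1 2 Cg * ee 2 Cg τ E i) (c3 i))
    (H3n : ∀ i < m, PayU (nvF hd b 𝒞) (WJ 𝒮 K V f j b e0 C2 Λ z) K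
      (fun l => wJ 𝒮 j b (true, l)) UA (R i) C1 Cg C1 (K1 2 Cg * ee 2 Cg τ E i)
      (K1 2 Cg * ee 2 Cg τ E i) (c3 i))
    {Pm Q1 : ℝ} (hPm0 : 0 ≤ Pm) (hQ10 : 0 ≤ Q1)
    (hPm : ∀ i < m, c2 i * √(K1 2 Cg * ee 2 Cg τ E i) ≤ Pm)
    (hQ1 : ∀ i < m, c3 i * √(K1 2 Cg * ee 2 Cg τ E i) * (32 * 4 + 2 * e0) ≤
      Q1 * ee 2 Cg τ E i) {cE : ℝ}
    (hEnd : ∀ K' : ℝ, 1 ≤ K' → E * (K1 2 Cg * τ) ^ m * K' ≤ E * (K1 2 Cg * MM 2) ^ m →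
      EndStm (nvF hd b 𝒞) (WJ 𝒮 K V f j b e0 C2 Λ z) K (fun l => wJ 𝒮 j b (false, l))
        (fun l => wJ 𝒮 j b (true, l)) UA (16 * 4 + e0) C1 e0 (E * (K1 2 Cg * τ) ^ m) K' cE)
    (i b' c' : Fin 4) (hb' : b' ≠ i) (hc' : c' ≠ i) (hbc : b' ≠ c') :
    TR (nvF hd b 𝒞) (WJ 𝒮 K V f j b e0 C2 Λ z) (update (update
      (rol i (cj i) ((false, i) : JP) ((true, i) : JP) fun c => st (UeJ 𝒮 K V f j b e0 C2 c Λ))
      b' (st (VJ 𝒮 K V f j b (cj i b') Λ - UeJ 𝒮 K V f j b e0 C2 (cj i b') Λ)))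
      c' (st (VJ 𝒮 K V f j b (cj i c') Λ - UeJ 𝒮 K V f j b e0 C2 (cj i c') Λ))) ≤
      numL4 C2 Cm C1 Cg e0 E τ CP Pm Q1 cE m * cd (gb n b) Λ z := by
  -- the fourth slot
  obtain ⟨d, hdi, hdb, hdc⟩ : ∃ d : Fin 4, d ≠ i ∧ d ≠ b' ∧ d ≠ c' := by
    revert i b' c'; decide
  have hn : [b', c', i, d].Nodup := by
    simp only [List.nodup_cons, List.mem_cons, List.not_mem_nil, not_or, or_false,
      List.nodup_nil, and_true, not_false_eq_true]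
    exact ⟨⟨hbc, hb', hdb.symm⟩, ⟨hc', hdc.symm⟩, hdi.symm⟩
  have hP := paths_step 𝒮 K V f j b
  have s0 : (ordr b' c' i d hn).symm 0 = i := rfl
  have s1 : (ordr b' c' i d hn).symm 1 = d := rfl
  rw [← T4_ordr (nvF hd b 𝒞) _ hn, rol_self, rol_of_ne hdi]
  have hGe : En (gb n b) (WJ 𝒮 K V f j b e0 C2 Λ z) (fun y =>
      UeJ 𝒮 K V f j b e0 C2 ((false, i) : JP) Λ y -
        UeJ 𝒮 K V f j b e0 C2 ((true, i) : JP) Λ y) C1 :=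
    (en_sub' (en_UeJ hΛ z _) (en_UeJ hΛ z _)).mono (by linarith)
  have hGu : Un (UA i) C1 (WJ 𝒮 K V f j b e0 C2 Λ z) (fun y =>
      UeJ 𝒮 K V f j b e0 C2 ((false, i) : JP) Λ y -
        UeJ 𝒮 K V f j b e0 C2 ((true, i) : JP) Λ y) :=
    un_mono (un_sub (un_UeJ hM hΛ z hU ((false, i) : JP)) (un_UeJ hM hΛ z hU ((true, i) : JP)))
      (by linarith)
  have h1e : En (gb n b) (WJ 𝒮 K V f j b e0 C2 Λ z) (UeJ 𝒮 K V f j b e0 C2 (cj i d) Λ) C1 :=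
    (en_UeJ hΛ z _).mono (by linarith)
  have h1u : Un (UA d) C1 (WJ 𝒮 K V f j b e0 C2 Λ z) (UeJ 𝒮 K V f j b e0 C2 (cj i d) Λ) :=
    un_mono (un_UeJ hM hΛ z hU (cj i d)) (by linarith)
  exact l4_win (nv := nvF hd b 𝒞) (ordr b' c' i d hn) hP (by norm_num) he0 hΛ hM hC hC2
    (fun l => ((false, l) : JP)) (fun l => ((true, l) : JP)) rfl (UA := UA) hC1 hCP hb hGe hGu
    h1e h1u hCg hMR hτ hτ1 hE hE0 hc2 hc3 H2 H3o H3n hPm0 hQ10 hPm hQ1 hEnd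
    (H501.rgn_wr hP hΛ z) (wr_top hz ht) (cj i b') (cj i c')

end

end Vale.Agent.P141.H379
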