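import Vale.Agent.P141.H379.TopR

/-!
# P141: the frame with costs which depend on the number of scales

* `boot_gen`: one step of the bootstrap, arbitrary costs `a j` of the steps, `β j` of the bad cells;
* `TopHypN`: as `TopHypR`, the step `j` costs `G n j + C ρ ^ j (1 + P)` with `∑ j, G n j ≤ Γ n`;
* `root2_of_topHypN`: then `Root2 n (C (1 + Γ n))` for all `n`.
-/

namespace Vale.Agent.P141.H379

open Finset Function
open Vale.Agent.P141.H315 (Grid dot)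
open Vale.Agent.P141.PL.H315 (le)
open Vale.Agent.P141.PL.H314 (nd Win)
open Vale.Agent.P141.PL.H95 (gr shf)
open Vale.Agent.P141.PL.H855 (Bel Bad wN gd gdU mem_gd mem_gdU ediv_pow_add sum_two_pow_le
  abs_tele_le sum_geom_le')
open Vale.Agent.P141.H347 (Dat2 Root2 root2_trivial)
open Vale.Agent.P141.H782 (bn bn_sub sum_bn ty typ_ty Fre fre_of_not_bad bdN BadC)

noncomputable section

open scoped Classical

/-- **One step of the bootstrap**, arbitrary costs. -/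
theorem boot_gen {n : ℕ} {f : Fin 4 → ℤ → ℝ} {o : ℤ} {K : ℕ} {V : ℤ} {𝒩 : Finset (ℕ × ℤ)}
    (hd : Dat2 n f o K V 𝒩) {X : ℕ → ℕ × ℤ → ℝ} {ℬ : ℕ → Finset (ℕ × ℤ)} {j0 : ℕ}
    {A0 A1 B1 M : ℝ} {a β : ℕ → ℝ} (hsub : ∀ j, j0 ≤ j → ℬ j ⊆ 𝒩)
    (hbad : ∀ j, j0 ≤ j → ∑ Q ∈ ℬ j, (2 : ℝ) ^ Q.1 ≤ β j * 2 ^ K)
    (hfirst : ∑ N ∈ gd 𝒩 (ℬ j0), |wN o f N - X j0 N| ≤ A0 * 2 ^ K)
    (hstep : ∀ j, j0 ≤ j → ∑ N ∈ gdU j0 (j + 1) 𝒩 ℬ, |X j N - X (j + 1) N| ≤ a j * 2 ^ K)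
    (hlim : ∀ N ∈ 𝒩, (∀ j, j0 ≤ j → ¬ Bad (ℬ j) N) → ∀ ε : ℝ, 0 < ε →
      ∃ J, ∀ j, J ≤ j → |X j N| ≤ ε)
    (ha : ∀ m, ∑ i ∈ range m, a (j0 + i) ≤ A1) (hβ : ∀ m, ∑ i ∈ range m, β (j0 + i) ≤ B1)
    (hM : 0 ≤ M) (hroot : Root2 n M) :
    ∑ N ∈ 𝒩, |wN o f N| ≤ (A0 + A1 + 1 + M * B1) * 2 ^ K := by
  have h2K : (1 : ℝ) ≤ 2 ^ K := one_le_pow₀ (by norm_num)
  set G : Finset (ℕ × ℤ) := 𝒩.filter fun N => ∀ j, j0 ≤ j → ¬ Bad (ℬ j) N with hG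
  set B : Finset (ℕ × ℤ) := 𝒩.filter fun N => ¬ ∀ j, j0 ≤ j → ¬ Bad (ℬ j) N with hB
  -- the last level
  have hb : ∀ N, ∃ j, N ∈ B → j0 ≤ j ∧ Bad (ℬ j) N := by
    intro N
    by_cases h : N ∈ B
    · have h1 := (mem_filter.1 h).2
      push Not at h1
      obtain ⟨j, h2, h3⟩ := h1
      exact ⟨j, fun _ => ⟨h2, h3⟩⟩
    · exact ⟨0, fun h' => absurd h' h⟩
  choose jb hjb using hb
  set ε : ℝ := 1 / (𝒩.card + 1) with hε
  have hε0 : 0 < ε := by positivity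
  have hg : ∀ N, ∃ J, N ∈ G → ∀ j, J ≤ j → |X j N| ≤ ε := by
    intro N
    by_cases h : N ∈ G
    · obtain ⟨J, hJ⟩ := hlim N (mem_filter.1 h).1 (mem_filter.1 h).2 ε hε0
      exact ⟨J, fun _ => hJ⟩
    · exact ⟨0, fun h' => absurd h' h⟩
  choose jg hjg using hg
  set m : ℕ := (𝒩.sup jb) + (𝒩.sup jg) + 1 with hm
  -- the good part
  have hgood : ∑ N ∈ G, |wN o f N| ≤ (A0 + A1 + 1) * 2 ^ K := by
    have h1 : ∑ N ∈ G, |wN o f N| ≤ ∑ N ∈ G, (|wN o f N - X j0 N| +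
        ∑ i ∈ range m, |X (j0 + i) N - X (j0 + i + 1) N| + |X (j0 + m) N|) :=
      sum_le_sum fun N _ => abs_tele_le _ (fun j => X j N) j0 m
    refine h1.trans ?_
    rw [sum_add_distrib, sum_add_distrib]
    have hsubG : G ⊆ gd 𝒩 (ℬ j0) := fun N hN =>
      mem_gd.2 ⟨(mem_filter.1 hN).1, (mem_filter.1 hN).2 j0 le_rfl⟩
    have a1 : ∑ N ∈ G, |wN o f N - X j0 N| ≤ A0 * 2 ^ K :=
      (sum_le_sum_of_subset_of_nonneg hsubG fun _ _ _ => abs_nonneg _).trans hfirst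
    have a2 : ∑ N ∈ G, ∑ i ∈ range m, |X (j0 + i) N - X (j0 + i + 1) N| ≤ A1 * 2 ^ K := by
      rw [sum_comm]
      have h2 : ∀ i ∈ range m, ∑ N ∈ G, |X (j0 + i) N - X (j0 + i + 1) N| ≤
          a (j0 + i) * 2 ^ K := by
        intro i _
        refine (sum_le_sum_of_subset_of_nonneg ?_ fun _ _ _ => abs_nonneg _).trans
          (hstep (j0 + i) (by omega))
        intro N hN
        exact mem_gdU.2 ⟨(mem_filter.1 hN).1, fun i' h1 _ => (mem_filter.1 hN).2 i' h1⟩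
      refine (sum_le_sum h2).trans ?_
      rw [← sum_mul]
      exact mul_le_mul_of_nonneg_right (ha m) (by positivity)
    have a3 : ∑ N ∈ G, |X (j0 + m) N| ≤ 1 := by
      have h2 : ∀ N ∈ G, |X (j0 + m) N| ≤ ε := by
        intro N hN
        refine hjg N hN _ ?_
        have := Finset.le_sup (f := jg) (mem_filter.1 hN).1
        omega
      refine (sum_le_sum h2).trans ?_
      rw [sum_const, nsmul_eq_mul]
      have h3 : (G.card : ℝ) ≤ 𝒩.card := by exact_mod_cast card_le_card (filter_subset _ _)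
      have h4 : ((𝒩.card : ℝ) + 1) * ε = 1 := by rw [hε]; field_simp
      nlinarith
    nlinarith
  -- the bad part
  have hbad' : ∑ N ∈ B, |wN o f N| ≤ M * B1 * 2 ^ K := by
    have h1 : ∑ N ∈ B, |wN o f N| ≤ ∑ i ∈ range m, ∑ Q ∈ ℬ (j0 + i),
        ∑ N ∈ 𝒩.filter (fun N => Bel N Q), |wN o f N| := by
      have h2 : ∀ N ∈ B, |wN o f N| ≤ ∑ i ∈ range m, ∑ Q ∈ ℬ (j0 + i),
          (if Bel N Q then |wN o f N| else 0) := by
        intro N hN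
        obtain ⟨h3, Q, hQ, hNQ⟩ := hjb N hN
        have h4 : jb N - j0 ∈ range m := by
          have := Finset.le_sup (f := jb) (mem_filter.1 hN).1
          rw [mem_range]
          omega
        have h5 : j0 + (jb N - j0) = jb N := by omega
        have nn : ∀ i ∈ range m, 0 ≤ ∑ Q ∈ ℬ (j0 + i), (if Bel N Q then |wN o f N| else 0) :=
          fun i _ => sum_nonneg fun Q _ => by split_ifs <;> simp
        refine le_trans ?_ (single_le_sum nn h4)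
        simp only [h5]
        refine le_trans (le_of_eq ?_) (single_le_sum (f := fun Q => if Bel N Q then |wN o f N|
          else 0) (fun Q _ => by split_ifs <;> simp) hQ)
        simp only [if_pos hNQ]
      refine (sum_le_sum h2).trans ?_
      rw [sum_comm]
      refine sum_le_sum fun i _ => ?_
      rw [sum_comm]
      refine sum_le_sum fun Q _ => ?_
      have h5 : ∑ N ∈ B, (if Bel N Q then |wN o f N| else 0) ≤
          ∑ N ∈ 𝒩, (if Bel N Q then |wN o f N| else 0) :=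
        sum_le_sum_of_subset_of_nonneg (filter_subset _ _) fun _ _ _ => by
          split_ifs <;> simp
      refine h5.trans (le_of_eq ?_)
      rw [sum_filter]
    refine h1.trans ?_
    have h2 : ∀ i ∈ range m, ∑ Q ∈ ℬ (j0 + i), ∑ N ∈ 𝒩.filter (fun N => Bel N Q), |wN o f N| ≤
        M * 2 ^ K * β (j0 + i) := by
      intro i _
      have h3 : ∀ Q ∈ ℬ (j0 + i), ∑ N ∈ 𝒩.filter (fun N => Bel N Q), |wN o f N| ≤
          M * 2 ^ Q.1 := by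
        intro Q hQ
        exact hroot f o Q.1 Q.2 _ (hd.cut (hsub (j0 + i) (by omega) hQ) fun N => mem_filter)
      refine (sum_le_sum h3).trans ?_
      rw [← mul_sum]
      have h4 := mul_le_mul_of_nonneg_left (hbad (j0 + i) (by omega)) hM
      linarith
    refine (sum_le_sum h2).trans ?_
    rw [← mul_sum]
    have h3 := mul_le_mul_of_nonneg_left (hβ m) (by positivity : 0 ≤ M * 2 ^ K)
    linarith
  have hsplit : ∑ N ∈ 𝒩, |wN o f N| = ∑ N ∈ G, |wN o f N| + ∑ N ∈ B, |wN o f N| := by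
    rw [hG, hB]
    exact (sum_filter_add_sum_filter_not 𝒩 _ _).symm
  rw [hsplit]
  linarith

/-- **What the level construction has to deliver**, costs depending on the number of scales. -/
def TopHypN (Γ : ℕ → ℝ) : Prop := ∃ ρ C : ℝ, ∃ F : ℕ → ℝ, ∃ G : ℕ → ℕ → ℝ, 0 < ρ ∧ ρ < 1 ∧ 0 ≤ C ∧
  (∀ n j, 0 ≤ G n j) ∧ (∀ n m, ∑ j ∈ range m, G n j ≤ Γ n) ∧
  ∀ j0 : ℕ, 1 ≤ j0 → ∀ (n : ℕ) (P : ℝ), 0 ≤ P → Root2 n P →
    ∃ δ η : ℕ → ℝ, (∀ j, 0 ≤ δ j) ∧ (∀ ε : ℝ, 0 < ε → ∃ J, ∀ j, J ≤ j → δ j ≤ ε) ∧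
      (∀ ε : ℝ, 0 < ε → ∃ J, ∀ j, J ≤ j → η j ≤ ε) ∧
      ∀ f o K V 𝒩, Dat2 n f o K V 𝒩 →
        ∃ R : ℕ → Bool → Fin 4 → ℕ → ℤ → ℝ,
          (∀ j, j0 ≤ j → ∃ 𝒞, BadC K (C * ρ ^ j) 𝒞 ∧ LevOk (δ j) (η j) C n 𝒩 𝒞 (R j)) ∧
          (∃ 𝒞, BadC K (C * ρ ^ j0) 𝒞 ∧ DifR n K 𝒩 𝒞 (fun N => nd o N.1 N.2 f)
            (ndR o n (R j0)) (F j0 + C * ρ ^ j0 * (1 + P))) ∧
          ∀ j, j0 ≤ j → ∃ 𝒞, BadC K (C * ρ ^ j) 𝒞 ∧
            DifR n K 𝒩 𝒞 (ndR o n (R j)) (ndR o n (R (j + 1)))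
              (G n j + C * ρ ^ j * (1 + P))

/-- one step of the bootstrap for one datum -/
theorem boot_topHypN {ρ C : ℝ} (hρ0 : 0 < ρ) (hρ1 : ρ < 1) (hC : 0 ≤ C) {F Γ0 : ℝ}
    {G : ℕ → ℝ} (hG : ∀ j, 0 ≤ G j) (hΓ : ∀ m, ∑ j ∈ range m, G j ≤ Γ0) {j0 n : ℕ} {P : ℝ}
    (hP : 0 ≤ P) (hroot : Root2 n P) {δ η : ℕ → ℝ} (hδ0 : ∀ j, 0 ≤ δ j)
    (hδ : ∀ ε : ℝ, 0 < ε → ∃ J, ∀ j, J ≤ j → δ j ≤ ε)
    (hη : ∀ ε : ℝ, 0 < ε → ∃ J, ∀ j, J ≤ j → η j ≤ ε) {f : Fin 4 → ℤ → ℝ} {o : ℤ} {K : ℕ} {V : ℤ}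
    {𝒩 : Finset (ℕ × ℤ)} (hd : Dat2 n f o K V 𝒩) {R : ℕ → Bool → Fin 4 → ℕ → ℤ → ℝ}
    (hL : ∀ j, j0 ≤ j → ∃ 𝒞, BadC K (C * ρ ^ j) 𝒞 ∧ LevOk (δ j) (η j) C n 𝒩 𝒞 (R j))
    (hF : ∃ 𝒞, BadC K (C * ρ ^ j0) 𝒞 ∧ DifR n K 𝒩 𝒞 (fun N => nd o N.1 N.2 f)
      (ndR o n (R j0)) (F + C * ρ ^ j0 * (1 + P)))
    (hS : ∀ j, j0 ≤ j → ∃ 𝒞, BadC K (C * ρ ^ j) 𝒞 ∧
      DifR n K 𝒩 𝒞 (ndR o n (R j)) (ndR o n (R (j + 1))) (G j + C * ρ ^ j * (1 + P)))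
    (hj : 2 ^ 9 * (3 * C) * ρ ^ j0 ≤ (1 - ρ) * (1 / 8)) :
    ∑ N ∈ 𝒩, |wN o f N| ≤ (F + Γ0 + 5 / 4 + P / 2) * 2 ^ K := by
  obtain ⟨𝒞0, hb0, hF⟩ := hF
  have hE : 0 ≤ 1 + P := by positivity
  have hL' : ∀ j, ∃ 𝒞 : Bool → Finset (ℕ × ℤ), j0 ≤ j →
      BadC K (C * ρ ^ j) 𝒞 ∧ LevOk (δ j) (η j) C n 𝒩 𝒞 (R j) := by
    intro j
    by_cases hj : j0 ≤ j
    · obtain ⟨𝒞, h1, h2⟩ := hL j hj
      exact ⟨𝒞, fun _ => ⟨h1, h2⟩⟩
    · exact ⟨fun _ => ∅, fun h => absurd h hj⟩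
  have hS' : ∀ j, ∃ 𝒞 : Bool → Finset (ℕ × ℤ), j0 ≤ j → BadC K (C * ρ ^ j) 𝒞 ∧
      DifR n K 𝒩 𝒞 (ndR o n (R j)) (ndR o n (R (j + 1))) (G j + C * ρ ^ j * (1 + P)) := by
    intro j
    by_cases hj : j0 ≤ j
    · obtain ⟨𝒞, h1, h2⟩ := hS j hj
      exact ⟨𝒞, fun _ => ⟨h1, h2⟩⟩
    · exact ⟨fun _ => ∅, fun h => absurd h hj⟩
  choose 𝒜 h𝒜 using hL'
  choose ℬ hℬ using hS'
  -- the bad cells of the level `j`
  set 𝒞 : ℕ → Bool → Finset (ℕ × ℤ) := fun j b =>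
    (𝒜 j b ∪ ℬ j b) ∪ (if j = j0 then 𝒞0 b else ∅) with h𝒞
  have hbad : ∀ j, j0 ≤ j → BadC K (3 * C * ρ ^ j) (𝒞 j) := by
    intro j hj
    have h1 := badC_union (h𝒜 j hj).1 (hℬ j hj).1
    have h2 : BadC K (C * ρ ^ j) (fun b => if j = j0 then 𝒞0 b else ∅) := by
      by_cases hj' : j = j0
      · subst hj'
        simpa only [if_true] using hb0
      · simp only [if_neg hj']
        exact badC_empty (by positivity)
    have h3 := badC_union h1 h2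
    have e : C * ρ ^ j + C * ρ ^ j + C * ρ ^ j = 3 * C * ρ ^ j := by ring
    rw [e] at h3
    exact h3
  have hfre : ∀ j, j0 ≤ j → ∀ N ∈ 𝒩, ¬ Bad (bdN n 𝒩 (𝒞 j)) N → ∀ b, Fre n b (𝒞 j b) N :=
    fun j hj N hN hb b => fre_of_not_bad hd.cl (hbad j hj).cell hN hb b
  have hCs : ∀ m, ∑ i ∈ range m, C * ρ ^ (j0 + i) ≤ 1 / 8 := by
    intro m
    refine sum_geom_le' hρ0.le ?_ (by norm_num) m
    refine le_trans ?_ hj
    refine mul_le_mul_of_nonneg_right ?_ (by positivity)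
    linarith
  have hC0 : C * ρ ^ j0 ≤ 1 / 8 := by
    have := hCs 1
    simpa using this
  refine (boot_gen hd (X := fun j N => ndR o n (R j) N) (ℬ := fun j => bdN n 𝒩 (𝒞 j)) (j0 := j0)
    (A0 := F + C * ρ ^ j0 * (1 + P)) (A1 := Γ0 + (1 + P) / 8) (B1 := 1 / 8) (M := P)
    (a := fun j => G j + C * ρ ^ j * (1 + P)) (β := fun j => 2 ^ 9 * (3 * C) * ρ ^ j)
    ?_ ?_ ?_ ?_ ?_ ?_ ?_ hP hroot).trans ?_
  · intro j _
    unfold bdN
    exact union_subset (bn_sub _ _ _) (bn_sub _ _ _)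
  · intro j hj
    have h1 : ∑ Q ∈ bdN n 𝒩 (𝒞 j), (2 : ℝ) ^ Q.1 ≤
        ∑ Q ∈ bn (shf (n + 7) false) 𝒩 (𝒞 j false), (2 : ℝ) ^ Q.1 +
        ∑ Q ∈ bn (shf (n + 7) true) 𝒩 (𝒞 j true), (2 : ℝ) ^ Q.1 := by
      unfold bdN
      have h := sum_union_inter (s₁ := bn (shf (n + 7) false) 𝒩 (𝒞 j false))
        (s₂ := bn (shf (n + 7) true) 𝒩 (𝒞 j true)) (f := fun N => (2 : ℝ) ^ N.1)
      have h2 : 0 ≤ ∑ N ∈ bn (shf (n + 7) false) 𝒩 (𝒞 j false) ∩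
        bn (shf (n + 7) true) 𝒩 (𝒞 j true), (2 : ℝ) ^ N.1 := sum_nonneg fun _ _ => by positivity
      linarith
    have h2 := sum_bn (shf (n + 7) false) 𝒩 (𝒞 j false)
    have h3 := sum_bn (shf (n + 7) true) 𝒩 (𝒞 j true)
    have h4 := (hbad j hj).bad false
    have h5 := (hbad j hj).bad true
    linarith
  · -- first
    refine le_trans (sum_le_sum_of_subset_of_nonneg ?_ fun _ _ _ => abs_nonneg _) hF
    intro N hN
    obtain ⟨hN1, hN2⟩ := mem_gd.1 hN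
    refine mem_filter.2 ⟨hN1, fre_mono ?_ (hfre j0 le_rfl N hN1 hN2 (ty n N))⟩
    simp only [h𝒞, if_true]
    exact subset_union_right
  · -- step
    intro j hj
    refine le_trans (sum_le_sum_of_subset_of_nonneg ?_ fun _ _ _ => abs_nonneg _) (hℬ j hj).2
    intro N hN
    obtain ⟨hN1, hN2⟩ := mem_gdU.1 hN
    refine mem_filter.2 ⟨hN1, fre_mono ?_
      (hfre j hj N hN1 (hN2 j hj (Nat.le_succ j)) (ty n N))⟩
    exact subset_union_right.trans subset_union_left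
  · -- limit
    intro N hN hb ε hε
    have hW := typ_ty (n := n) (N := N) ((hd.root N hN).2.1.trans hd.hK)
    have hfr : ∀ j, j0 ≤ j → Fre n (ty n N) (𝒜 j (ty n N)) N := fun j hj =>
      fre_mono (subset_union_left.trans subset_union_left) (hfre j hj N hN (hb j hj) _)
    exact lim_ndX hd.ho (hd.root N hN).1 (v := N.2) (s := shf (n + 7) (ty n N)) hW hδ0 hδ hη
      (j0 := j0) (f := fun j i => R j (ty n N) i N.1)
      (fun j hj => (h𝒜 j hj).2.unif N hN (hfr j hj))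
      (fun j hj i => (h𝒜 j hj).2.energy N hN (hfr j hj) i) hε
  · -- the costs of the steps
    intro m
    rw [sum_add_distrib, ← sum_mul]
    have h1 : ∑ i ∈ range m, G (j0 + i) ≤ Γ0 := by
      refine le_trans ?_ (hΓ (j0 + m))
      rw [sum_range_add]
      have : 0 ≤ ∑ i ∈ range j0, G i := sum_nonneg fun i _ => hG i
      linarith
    have h2 := mul_le_mul_of_nonneg_right (hCs m) hE
    linarith
  · -- the bad cells
    intro m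
    exact sum_geom_le' hρ0.le hj (by norm_num) m
  · refine mul_le_mul_of_nonneg_right ?_ (by positivity)
    have h1 := mul_le_mul_of_nonneg_right hC0 hE
    linarith

/-- **The root estimate.** -/
theorem root2_of_topHypN {Γ : ℕ → ℝ} (h : TopHypN Γ) :
    ∃ C : ℝ, 0 ≤ C ∧ ∀ n : ℕ, Root2 n (C * (1 + Γ n)) := by
  obtain ⟨ρ, C, F, G, hρ0, hρ1, hC, hG, hΓ, h⟩ := h
  obtain ⟨js, hjs1, hjs⟩ : ∃ js : ℕ, 1 ≤ js ∧ 2 ^ 9 * (3 * C) * ρ ^ js ≤ (1 - ρ) * (1 / 8) := by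
    have h1 : Filter.Tendsto (fun j : ℕ => 2 ^ 9 * (3 * C) * ρ ^ j) Filter.atTop
        (nhds (2 ^ 9 * (3 * C) * 0)) :=
      (tendsto_pow_atTop_nhds_zero_of_lt_one hρ0.le hρ1).const_mul _
    rw [mul_zero] at h1
    have h2 : (0 : ℝ) < (1 - ρ) * (1 / 8) := by linarith
    obtain ⟨j1, hj1⟩ := Filter.eventually_atTop.1 (h1.eventually_le_const h2)
    exact ⟨j1 + 1, by omega, hj1 (j1 + 1) (by omega)⟩
  have hΓ0 : ∀ n, 0 ≤ Γ n := fun n => by simpa using hΓ n 0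
  set c : ℝ := |F js| + 5 / 4 with hc
  have hc0 : 0 ≤ c := by positivity
  have hc1 : 1 ≤ c := by
    have := abs_nonneg (F js)
    rw [hc]; linarith
  -- one step
  have hstep : ∀ n : ℕ, ∀ P : ℝ, 0 ≤ P → Root2 n P → Root2 n (c * (1 + Γ n) + P / 2) := by
    intro n P hP hPr f o K V 𝒩 hd
    obtain ⟨δ, η, hδ0, hδ, hη, hh⟩ := h js hjs1 n P hP hPr
    obtain ⟨R, hL, hF, hS⟩ := hh f o K V 𝒩 hd
    have h1 := boot_topHypN hρ0 hρ1 hC (hG n) (hΓ n) hP hPr hδ0 hδ hη hd hL hF hS hjs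
    refine h1.trans (mul_le_mul_of_nonneg_right ?_ (by positivity))
    have h2 := le_abs_self (F js)
    have h3 := mul_le_mul_of_nonneg_right hc1 (hΓ0 n)
    rw [hc] at *
    linarith
  refine ⟨2 * c, by positivity, fun n f o K V 𝒩 hd => ?_⟩
  set Bc : ℝ := c * (1 + Γ n) with hBc
  have hBc0 : 0 ≤ Bc := by
    have := hΓ0 n
    positivity
  -- iteration
  have hit : ∀ i : ℕ, Root2 n (2 * Bc + 2 ^ 10 * n / 2 ^ i) := by
    intro i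
    induction i with
    | zero =>
      refine (root2_trivial n).mono ?_
      rw [pow_zero, div_one]
      linarith
    | succ i ih =>
      refine (hstep n _ (by positivity) ih).mono (le_of_eq ?_)
      rw [pow_succ]
      field_simp
      ring
  have hlim : Filter.Tendsto (fun i : ℕ => (2 * Bc + 2 ^ 10 * (n : ℝ) / 2 ^ i) * 2 ^ K)
      Filter.atTop (nhds ((2 * Bc + 0) * 2 ^ K)) := by
    have h1 : Filter.Tendsto (fun i : ℕ => 2 ^ 10 * (n : ℝ) / 2 ^ i) Filter.atTop (nhds 0) := by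
      have h2 := (tendsto_pow_atTop_nhds_zero_of_lt_one (by norm_num : (0 : ℝ) ≤ 1 / 2)
        (by norm_num)).const_mul (2 ^ 10 * (n : ℝ))
      rw [mul_zero] at h2
      refine h2.congr fun i => ?_
      rw [one_div, inv_pow]
      rfl
    exact (h1.const_add _).mul_const _
  rw [add_zero] at hlim
  have h9 := ge_of_tendsto' hlim fun i => hit i f o K V 𝒩 hd
  have e : 2 * Bc = 2 * c * (1 + Γ n) := by rw [hBc]; ring
  rw [e] at h9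
  exact h9

end

end Vale.Agent.P141.H379
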