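import Vale.Agent.P141.H379.LimX
import Vale.Agent.P141.H379.Top

/-!
# P141: the frame for an arbitrary family of residual functions

Nothing in this file knows the level process.  `R j b i k` = function of the level `j`, type `b`,
slot `i` used at the nodes of scale `k`.

* `LevOk`: the bounds of one level: at the nodes free of the bad cells the slot `0` is uniform of
  level `δ` up to an error of energy `η * 2 ^ k`, the local energies are at most `C * 2 ^ k`;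
* `SumR`: the sum of the node forms of all roles between two families;
* `TopHypR`: what the level construction has to deliver; `levelSys2_of_topHypR`,
  `boundedAt_444_of_topHypR`;
* `sumR_of_windows`: `SumR` from the bounds on the windows, arbitrary labels.
-/

namespace Vale.Agent.P141.H379

open Finset Function
open Vale.Agent.P141.H315 (Grid dot)
open Vale.Agent.P141.PL (Pt el fc lift Bx iv)
open Vale.Agent.P141.PL.H315 (le cube3 Tri)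
open Vale.Agent.P141.PL.H314 (nd Win)
open Vale.Agent.P141.PL.H571 (W)
open Vale.Agent.P141.PL.H318 (a1)
open Vale.Agent.P141.PL.H95 (gr gr_cube shf)
open Vale.Agent.P141.PL.H855 (Bel Bad wN gd gdU mem_gd mem_gdU TR)
open Vale.Agent.P141.H347 (Dat2 Root2 LvSys2 LevelSys2 cd)
open Vale.Agent.P141.H782 (bn bn_sub sum_bn rl nd_tele abs_nd_tele ty typ_ty Fre gb used used_congr
  le_mem_W fre_of_not_bad bdN bn_sub_bdN frN mem_frN BadC LSys lp)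
open Vale.Agent.P141.H8 (Lab Wr tops)
open Vale.Agent.P141.H444 (used_of_mem2 FirstB2)
open Vale.Agent.P141.H922 (wP)

noncomputable section

open scoped Classical

/-- **One level.** -/
structure LevOk (δ η C : ℝ) (n : ℕ) (𝒩 : Finset (ℕ × ℤ)) (𝒞 : Bool → Finset (ℕ × ℤ))
    (R : Bool → Fin 4 → ℕ → ℤ → ℝ) : Prop where
  unif : ∀ N ∈ 𝒩, Fre n (ty n N) (𝒞 (ty n N)) N → ∃ X : ℤ → ℝ,
    dot ((gb n (ty n N)).cube N.1 (le N)) X X ≤ η * 2 ^ N.1 ∧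
    ∀ t : Pt × Tri, |dot ((gb n (ty n N)).cube N.1 (le N)) (R (ty n N) 0 N.1 - X)
      (a1 (fc 0) N.1 t)| ≤ wP δ (cube3 N.1 t.1) t.2
  energy : ∀ N ∈ 𝒩, Fre n (ty n N) (𝒞 (ty n N)) N → ∀ i,
    dot ((gb n (ty n N)).cube N.1 (le N)) (R (ty n N) i N.1) (R (ty n N) i N.1) ≤ C * 2 ^ N.1

/-- **All roles between two families**, over the nodes free of `𝒞`. -/
def SumR (o : ℤ) (n K : ℕ) (𝒩 : Finset (ℕ × ℤ)) (𝒞 : Bool → Finset (ℕ × ℤ))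
    (R R' : Bool → Fin 4 → ℕ → ℤ → ℝ) (a : ℝ) : Prop :=
  ∀ b i, ∑ N ∈ frN n b 𝒩 (𝒞 b),
    |nd o N.1 N.2 (rl (fun m => R b m N.1) (fun m => R' b m N.1) i)| ≤ a * 2 ^ K

theorem fre_mono {n : ℕ} {b : Bool} {𝒞 𝒞' : Finset (ℕ × ℤ)} (h : 𝒞 ⊆ 𝒞') {N : ℕ × ℤ}
    (hN : Fre n b 𝒞' N) : Fre n b 𝒞 N := fun c hc => hN c (h hc)

theorem frN_anti {n : ℕ} {b : Bool} {𝒩 𝒞 𝒞' : Finset (ℕ × ℤ)} (h : 𝒞 ⊆ 𝒞') :
    frN n b 𝒩 𝒞' ⊆ frN n b 𝒩 𝒞 := fun N hN => by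
  obtain ⟨h1, h2, h3⟩ := mem_frN.1 hN
  exact mem_frN.2 ⟨h1, h2, fre_mono h h3⟩

theorem LevOk.mono {δ η C C' : ℝ} {n : ℕ} {𝒩 : Finset (ℕ × ℤ)} {𝒞 𝒞' : Bool → Finset (ℕ × ℤ)}
    {R : Bool → Fin 4 → ℕ → ℤ → ℝ} (h : LevOk δ η C n 𝒩 𝒞 R) (hC : C ≤ C')
    (h𝒞 : ∀ b, 𝒞 b ⊆ 𝒞' b) : LevOk δ η C' n 𝒩 𝒞' R :=
  ⟨fun N hN hf => h.unif N hN (fre_mono (h𝒞 _) hf), fun N hN hf i =>
    (h.energy N hN (fre_mono (h𝒞 _) hf) i).trans
      (mul_le_mul_of_nonneg_right hC (by positivity))⟩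

theorem SumR.mono {o : ℤ} {n K : ℕ} {𝒩 : Finset (ℕ × ℤ)} {𝒞 𝒞' : Bool → Finset (ℕ × ℤ)}
    {R R' : Bool → Fin 4 → ℕ → ℤ → ℝ} {a a' : ℝ} (h : SumR o n K 𝒩 𝒞 R R' a) (ha : a ≤ a')
    (h𝒞 : ∀ b, 𝒞 b ⊆ 𝒞' b) : SumR o n K 𝒩 𝒞' R R' a' := fun b i =>
  (sum_le_sum_of_subset_of_nonneg (frN_anti (h𝒞 b)) fun _ _ _ => abs_nonneg _).trans
    ((h b i).trans (mul_le_mul_of_nonneg_right ha (by positivity)))

/-- the difference of the node forms of two families -/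
theorem SumR.diff {o : ℤ} {n K : ℕ} {𝒩 : Finset (ℕ × ℤ)} {𝒞 : Bool → Finset (ℕ × ℤ)}
    {R R' : Bool → Fin 4 → ℕ → ℤ → ℝ} {a : ℝ} (h : SumR o n K 𝒩 𝒞 R R' a) :
    ∑ N ∈ 𝒩.filter (fun N => Fre n (ty n N) (𝒞 (ty n N)) N),
      |nd o N.1 N.2 (fun m => R (ty n N) m N.1) - nd o N.1 N.2 (fun m => R' (ty n N) m N.1)| ≤
        8 * a * 2 ^ K := by
  have h2 : ∀ N ∈ 𝒩.filter (fun N => Fre n (ty n N) (𝒞 (ty n N)) N),
      |nd o N.1 N.2 (fun m => R (ty n N) m N.1) - nd o N.1 N.2 (fun m => R' (ty n N) m N.1)| ≤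
      ∑ b : Bool, ∑ i : Fin 4, if N ∈ frN n b 𝒩 (𝒞 b) then
        |nd o N.1 N.2 (rl (fun m => R b m N.1) (fun m => R' b m N.1) i)| else 0 := by
    intro N hN
    obtain ⟨hN1, hN2⟩ := mem_filter.1 hN
    have hmem : N ∈ frN n (ty n N) 𝒩 (𝒞 (ty n N)) := mem_frN.2 ⟨hN1, rfl, hN2⟩
    refine (abs_nd_tele o N.1 N.2 (fun m => R (ty n N) m N.1)
      (fun m => R' (ty n N) m N.1)).trans ?_
    refine le_trans (le_of_eq ?_) (single_le_sum (f := fun b : Bool => ∑ i : Fin 4,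
      if N ∈ frN n b 𝒩 (𝒞 b) then
        |nd o N.1 N.2 (rl (fun m => R b m N.1) (fun m => R' b m N.1) i)| else 0)
      (fun b _ => sum_nonneg fun i _ => by split_ifs <;> simp) (mem_univ (ty n N)))
    exact sum_congr rfl fun i _ => by rw [if_pos hmem]
  refine (sum_le_sum h2).trans ?_
  rw [sum_comm]
  have h3 : ∀ b : Bool, ∑ N ∈ 𝒩.filter (fun N => Fre n (ty n N) (𝒞 (ty n N)) N),
      ∑ i : Fin 4, (if N ∈ frN n b 𝒩 (𝒞 b) then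
        |nd o N.1 N.2 (rl (fun m => R b m N.1) (fun m => R' b m N.1) i)| else 0) ≤
      ∑ _i : Fin 4, a * 2 ^ K := by
    intro b
    rw [sum_comm]
    refine sum_le_sum fun i _ => le_trans ?_ (h b i)
    rw [← sum_filter]
    refine sum_le_sum_of_subset_of_nonneg ?_ fun _ _ _ => abs_nonneg _
    intro N hN
    exact (mem_filter.1 hN).2
  refine (sum_le_sum fun b _ => h3 b).trans (le_of_eq ?_)
  simp only [sum_const, card_univ, Fintype.card_fin, Fintype.card_bool, nsmul_eq_mul]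
  push_cast
  ring

/-- two arrows one after the other: the level systems only read the differences of node forms -/
def DifR (n K : ℕ) (𝒩 : Finset (ℕ × ℤ)) (𝒞 : Bool → Finset (ℕ × ℤ))
    (X X' : ℕ × ℤ → ℝ) (a : ℝ) : Prop :=
  ∑ N ∈ 𝒩.filter (fun N => Fre n (ty n N) (𝒞 (ty n N)) N), |X N - X' N| ≤ a * 2 ^ K

theorem DifR.trans {n K : ℕ} {𝒩 : Finset (ℕ × ℤ)} {𝒞 : Bool → Finset (ℕ × ℤ)}
    {X X' X'' : ℕ × ℤ → ℝ} {a a' : ℝ} (h : DifR n K 𝒩 𝒞 X X' a)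
    (h' : DifR n K 𝒩 𝒞 X' X'' a') : DifR n K 𝒩 𝒞 X X'' (a + a') := by
  unfold DifR at *
  rw [add_mul]
  refine le_trans ?_ (add_le_add h h')
  rw [← sum_add_distrib]
  exact sum_le_sum fun N _ => abs_sub_le _ _ _

/-- the node forms of a family -/
def ndR (o : ℤ) (n : ℕ) (R : Bool → Fin 4 → ℕ → ℤ → ℝ) (N : ℕ × ℤ) : ℝ :=
  nd o N.1 N.2 fun m => R (ty n N) m N.1

theorem SumR.dif {o : ℤ} {n K : ℕ} {𝒩 : Finset (ℕ × ℤ)} {𝒞 : Bool → Finset (ℕ × ℤ)}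
    {R R' : Bool → Fin 4 → ℕ → ℤ → ℝ} {a : ℝ} (h : SumR o n K 𝒩 𝒞 R R' a) :
    DifR n K 𝒩 𝒞 (ndR o n R) (ndR o n R') (8 * a) := h.diff

theorem DifR.mono {n K : ℕ} {𝒩 : Finset (ℕ × ℤ)} {𝒞 𝒞' : Bool → Finset (ℕ × ℤ)}
    {X X' : ℕ × ℤ → ℝ} {a a' : ℝ} (h : DifR n K 𝒩 𝒞 X X' a) (ha : a ≤ a')
    (h𝒞 : ∀ b, 𝒞 b ⊆ 𝒞' b) : DifR n K 𝒩 𝒞' X X' a' := by
  unfold DifR at *
  refine (sum_le_sum_of_subset_of_nonneg ?_ fun _ _ _ => abs_nonneg _).trans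
    (h.trans (mul_le_mul_of_nonneg_right ha (by positivity)))
  intro N hN
  obtain ⟨h1, h2⟩ := mem_filter.1 hN
  exact mem_filter.2 ⟨h1, fre_mono (h𝒞 _) h2⟩

/-- the union of two families of bad cells -/
theorem badC_union {K : ℕ} {β β' : ℝ} {𝒞 𝒞' : Bool → Finset (ℕ × ℤ)} (h : BadC K β 𝒞)
    (h' : BadC K β' 𝒞') : BadC K (β + β') fun b => 𝒞 b ∪ 𝒞' b where
  cell b c hc := by
    rcases mem_union.1 hc with hc | hc
    · exact h.cell b c hc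
    · exact h'.cell b c hc
  bad b := by
    have h1 := sum_union_inter (s₁ := 𝒞 b) (s₂ := 𝒞' b) (f := fun c => (2 : ℝ) ^ c.1)
    have h2 : 0 ≤ ∑ c ∈ 𝒞 b ∩ 𝒞' b, (2 : ℝ) ^ c.1 := sum_nonneg fun _ _ => by positivity
    have h3 := h.bad b
    have h4 := h'.bad b
    rw [add_mul]
    linarith

/-- **What the level construction has to deliver**, in terms of the node forms.  `X j` = the node
forms of the level `j`; the families of bad cells of the levels, of the first arrow and of the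
steps are separate. -/
def TopHypR : Prop := ∃ ρ C : ℝ, ∃ F : ℕ → ℝ, 0 < ρ ∧ ρ < 1 ∧ 0 ≤ C ∧
  ∀ j0 : ℕ, 1 ≤ j0 → ∀ (n : ℕ) (P : ℝ), 0 ≤ P → Root2 n P →
    ∃ δ η : ℕ → ℝ, (∀ j, 0 ≤ δ j) ∧ (∀ ε : ℝ, 0 < ε → ∃ J, ∀ j, J ≤ j → δ j ≤ ε) ∧
      (∀ ε : ℝ, 0 < ε → ∃ J, ∀ j, J ≤ j → η j ≤ ε) ∧
      ∀ f o K V 𝒩, Dat2 n f o K V 𝒩 →
        ∃ R : ℕ → Bool → Fin 4 → ℕ → ℤ → ℝ,
          (∀ j, j0 ≤ j → ∃ 𝒞, BadC K (C * ρ ^ j) 𝒞 ∧ LevOk (δ j) (η j) C n 𝒩 𝒞 (R j)) ∧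
          (∃ 𝒞, BadC K (C * ρ ^ j0) 𝒞 ∧ DifR n K 𝒩 𝒞 (fun N => nd o N.1 N.2 f)
            (ndR o n (R j0)) (F j0 + C * ρ ^ j0 * (1 + P))) ∧
          ∀ j, j0 ≤ j → ∃ 𝒞, BadC K (C * ρ ^ j) 𝒞 ∧
            DifR n K 𝒩 𝒞 (ndR o n (R j)) (ndR o n (R (j + 1))) (C * ρ ^ j * (1 + P))

/-- **The level systems.** -/
theorem levelSys2_of_topHypR (h : TopHypR) : LevelSys2 := by
  obtain ⟨ρ, C, F, hρ0, hρ1, hC, h⟩ := h
  refine ⟨ρ, 2 ^ 9 * (3 * C), F, hρ0.le, hρ1, by positivity, ?_⟩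
  intro j0 hj0 n P hP hroot f o K V 𝒩 hd
  obtain ⟨δ, η, hδ0, hδ, hη, h⟩ := h j0 hj0 n P hP hroot
  obtain ⟨R, hL, ⟨𝒞0, hb0, hF⟩, hS⟩ := h f o K V 𝒩 hd
  have hE : 0 ≤ 1 + P := by positivity
  -- the families for all `j`
  have hL' : ∀ j, ∃ 𝒞 : Bool → Finset (ℕ × ℤ), j0 ≤ j →
      BadC K (C * ρ ^ j) 𝒞 ∧ LevOk (δ j) (η j) C n 𝒩 𝒞 (R j) := by
    intro j
    by_cases hj : j0 ≤ j
    · obtain ⟨𝒞, h1, h2⟩ := hL j hj
      exact ⟨𝒞, fun _ => ⟨h1, h2⟩⟩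
    · exact ⟨fun _ => ∅, fun h => absurd h hj⟩
  have hS' : ∀ j, ∃ 𝒞 : Bool → Finset (ℕ × ℤ), j0 ≤ j → BadC K (C * ρ ^ j) 𝒞 ∧
      DifR n K 𝒩 𝒞 (ndR o n (R j)) (ndR o n (R (j + 1))) (C * ρ ^ j * (1 + P)) := by
    intro j
    by_cases hj : j0 ≤ j
    · obtain ⟨𝒞, h1, h2⟩ := hS j hj
      exact ⟨𝒞, fun _ => ⟨h1, h2⟩⟩
    · exact ⟨fun _ => ∅, fun h => absurd h hj⟩
  choose 𝒜 h𝒜 using hL'
  choose ℬ hℬ using hS'
  -- the bad cells of the level `j`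
  set 𝒞 : ℕ → Bool → Finset (ℕ × ℤ) := fun j b =>
    (𝒜 j b ∪ ℬ j b) ∪ (if j = j0 then 𝒞0 b else ∅) with h𝒞
  have hbad : ∀ j, j0 ≤ j → BadC K (3 * C * ρ ^ j) (𝒞 j) := by
    intro j hj
    have h1 := badC_union (h𝒜 j hj).1 (hℬ j hj).1
    have h2 : BadC K (C * ρ ^ j) (fun b => if j = j0 then 𝒞0 b else ∅) := by
      by_cases hj' : j = j0
      · subst hj'
        simpa only [if_true] using hb0
      · simp only [if_neg hj']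
        exact badC_empty (by positivity)
    have h3 := badC_union h1 h2
    have e : C * ρ ^ j + C * ρ ^ j + C * ρ ^ j = 3 * C * ρ ^ j := by ring
    rw [e] at h3
    exact h3
  have hfre : ∀ j, j0 ≤ j → ∀ N ∈ 𝒩, ¬ Bad (bdN n 𝒩 (𝒞 j)) N → ∀ b, Fre n b (𝒞 j b) N :=
    fun j hj N hN hb b => fre_of_not_bad hd.cl (hbad j hj).cell hN hb b
  refine ⟨fun j N => ndR o n (R j) N, fun j => bdN n 𝒩 (𝒞 j), ?_, ?_, ?_, ?_, ?_⟩
  · intro j _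
    unfold bdN
    exact union_subset (bn_sub _ _ _) (bn_sub _ _ _)
  · intro j hj
    have h1 : ∑ Q ∈ bdN n 𝒩 (𝒞 j), (2 : ℝ) ^ Q.1 ≤
        ∑ Q ∈ bn (shf (n + 7) false) 𝒩 (𝒞 j false), (2 : ℝ) ^ Q.1 +
        ∑ Q ∈ bn (shf (n + 7) true) 𝒩 (𝒞 j true), (2 : ℝ) ^ Q.1 := by
      unfold bdN
      have h := sum_union_inter (s₁ := bn (shf (n + 7) false) 𝒩 (𝒞 j false))
        (s₂ := bn (shf (n + 7) true) 𝒩 (𝒞 j true)) (f := fun N => (2 : ℝ) ^ N.1)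
      have h2 : 0 ≤ ∑ N ∈ bn (shf (n + 7) false) 𝒩 (𝒞 j false) ∩
        bn (shf (n + 7) true) 𝒩 (𝒞 j true), (2 : ℝ) ^ N.1 := sum_nonneg fun _ _ => by positivity
      linarith
    have h2 := sum_bn (shf (n + 7) false) 𝒩 (𝒞 j false)
    have h3 := sum_bn (shf (n + 7) true) 𝒩 (𝒞 j true)
    have h4 := (hbad j hj).bad false
    have h5 := (hbad j hj).bad true
    linarith
  · -- first
    have h1 : ∑ N ∈ gd 𝒩 (bdN n 𝒩 (𝒞 j0)), |wN o f N - ndR o n (R j0) N| ≤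
        ∑ N ∈ 𝒩.filter (fun N => Fre n (ty n N) (𝒞0 (ty n N)) N),
          |nd o N.1 N.2 f - ndR o n (R j0) N| := by
      refine sum_le_sum_of_subset_of_nonneg ?_ fun _ _ _ => abs_nonneg _
      intro N hN
      obtain ⟨hN1, hN2⟩ := mem_gd.1 hN
      refine mem_filter.2 ⟨hN1, fre_mono ?_ (hfre j0 le_rfl N hN1 hN2 (ty n N))⟩
      simp only [h𝒞, if_true]
      exact subset_union_right
    refine (h1.trans hF).trans ?_
    have h3 : 0 ≤ C * ρ ^ j0 * (1 + P) := by positivity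
    refine mul_le_mul_of_nonneg_right ?_ (by positivity)
    nlinarith
  · -- step
    intro j hj
    have h1 : ∑ N ∈ gdU j0 (j + 1) 𝒩 (fun j => bdN n 𝒩 (𝒞 j)),
        |ndR o n (R j) N - ndR o n (R (j + 1)) N| ≤
        ∑ N ∈ 𝒩.filter (fun N => Fre n (ty n N) (ℬ j (ty n N)) N),
          |ndR o n (R j) N - ndR o n (R (j + 1)) N| := by
      refine sum_le_sum_of_subset_of_nonneg ?_ fun _ _ _ => abs_nonneg _
      intro N hN
      obtain ⟨hN1, hN2⟩ := mem_gdU.1 hN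
      refine mem_filter.2 ⟨hN1, fre_mono ?_
        (hfre j hj N hN1 (hN2 j hj (Nat.le_succ j)) (ty n N))⟩
      exact subset_union_right.trans subset_union_left
    refine (h1.trans (hℬ j hj).2).trans ?_
    have h3 : 0 ≤ C * ρ ^ j * (1 + P) := by positivity
    refine mul_le_mul_of_nonneg_right ?_ (by positivity)
    nlinarith
  · -- limit
    intro N hN hb ε hε
    have hW := typ_ty (n := n) (N := N) ((hd.root N hN).2.1.trans hd.hK)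
    have hfr : ∀ j, j0 ≤ j → Fre n (ty n N) (𝒜 j (ty n N)) N := fun j hj =>
      fre_mono (subset_union_left.trans subset_union_left) (hfre j hj N hN (hb j hj) _)
    exact lim_ndX hd.ho (hd.root N hN).1 (v := N.2) (s := shf (n + 7) (ty n N)) hW hδ0 hδ hη
      (j0 := j0) (f := fun j i => R j (ty n N) i N.1)
      (fun j hj => (h𝒜 j hj).2.unif N hN (hfr j hj))
      (fun j hj i => (h𝒜 j hj).2.energy N hN (hfr j hj) i) hε

/-- the first arrow of the landed systems -/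
theorem dif_of_firstB2 {n : ℕ} {ι : Type} {𝒮 : LSys n ι} {ρ C F : ℝ} {j0 : ℕ} {E : ℝ}
    {f : Fin 4 → ℤ → ℝ} {o : ℤ} {K : ℕ} {V : ℤ} {𝒩 : Finset (ℕ × ℤ)}
    (h : FirstB2 𝒮 ρ C F j0 E f o K V 𝒩) : ∃ 𝒞, BadC K (C * ρ ^ j0) 𝒞 ∧
      DifR n K 𝒩 𝒞 (fun N => nd o N.1 N.2 f) (ndR o n fun b m => lp 𝒮 K V f j0 b m)
        (8 * (F + C * ρ ^ j0 * E)) := by
  obtain ⟨𝒞, h1, h2⟩ := h
  refine ⟨𝒞, h1, ?_⟩
  have h3 : SumR o n K 𝒩 𝒞 (fun _ m _ => f m) (fun b m => lp 𝒮 K V f j0 b m)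
      (F + C * ρ ^ j0 * E) := fun b i => h2 b i
  exact h3.dif

/-- **The first arrow in two steps**: the landed first level (for example scalar tests only),
then any comparison of its residuals with the new family. -/
theorem first_arrow {n : ℕ} {ι : Type} {𝒮 : LSys n ι} {ρ C F F' C' : ℝ} {j0 : ℕ} {E : ℝ}
    {f : Fin 4 → ℤ → ℝ} {o : ℤ} {K : ℕ} {V : ℤ} {𝒩 : Finset (ℕ × ℤ)}
    (h : FirstB2 𝒮 ρ C F j0 E f o K V 𝒩) {R : Bool → Fin 4 → ℕ → ℤ → ℝ}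
    (h' : ∃ 𝒞, BadC K (C' * ρ ^ j0) 𝒞 ∧ SumR o n K 𝒩 𝒞 (fun b m => lp 𝒮 K V f j0 b m) R
      (F' + C' * ρ ^ j0 * E)) : ∃ 𝒞, BadC K ((C + C') * ρ ^ j0) 𝒞 ∧
      DifR n K 𝒩 𝒞 (fun N => nd o N.1 N.2 f) (ndR o n R)
        (8 * (F + F') + 8 * (C + C') * ρ ^ j0 * E) := by
  obtain ⟨𝒞, h1, h2⟩ := dif_of_firstB2 h
  obtain ⟨𝒞', h3, h4⟩ := h'
  have h5 := badC_union h1 h3
  rw [← add_mul] at h5
  refine ⟨_, h5, ?_⟩
  have h6 := (h2.mono le_rfl fun b => subset_union_left (s₂ := 𝒞' b)).trans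
    (h4.dif.mono le_rfl fun b => subset_union_right (s₁ := 𝒞 b))
  refine h6.mono (le_of_eq ?_) fun _ => Subset.rfl
  ring

/-- **The boundedness at `(4, 4, 4)`.** -/
theorem boundedAt_444_of_topHypR (h : TopHypR) : Vale.Agent.P141.BoundedAt 4 4 4 (4 / 3) :=
  Vale.Agent.P141.H347.boundedAt_444_of_levelSys2 (levelSys2_of_topHypR h)

/-! ### From the windows -/

/-- **`SumR` from the bounds on the windows**: arbitrary families, arbitrary labels. -/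
theorem sumR_of_windows {n : ℕ} {f : Fin 4 → ℤ → ℝ} {o : ℤ} {K : ℕ} {V : ℤ}
    {𝒩 : Finset (ℕ × ℤ)} (hd : Dat2 n f o K V 𝒩) (𝒞 : Bool → Finset (ℕ × ℤ))
    (R R' : Bool → Fin 4 → ℕ → ℤ → ℝ) (tp : Bool → ℕ → ℤ → ℕ)
    (hl : ∀ b, Lab (gb n b) K (tp b)) {κ a A : ℝ} (ha : 0 ≤ a) (hκ : 0 ≤ κ)
    (hpack : ∀ b x, used n K V f b K x →
      tops (gb n b) (used n K V f b) (tp b) K x ≤ κ * cd (gb n b) K x)
    (H : ∀ b i, ∀ Λ ≤ K, ∀ z, used n K V f b Λ z → tp b Λ z = Λ →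
      TR (nvF hd b (𝒞 b)) (Wr (gb n b) (used n K V f b) (tp b) Λ z)
        (fun m k => rl (fun m => R b m k) (fun m => R' b m k) i m) ≤ a * cd (gb n b) Λ z)
    (hA : 2 ^ 8 * (a * κ) ≤ A) : SumR o n K 𝒩 𝒞 R R' A := by
  intro b i
  have h := sum_nd_le hd b (𝒞 b) (gd := used n K V f b) (fun k x y h => used_congr h)
    (fun k _ x h i => (h i).mono (Nat.le_succ k))
    (fun N hN => used_of_mem2 hd (mem_frN.1 hN).1 b (le_mem_W N)) (hl b)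
    (κ := κ) ha hκ (fun x hx => hpack b x hx)
    (fun m k => rl (fun m => R b m k) (fun m => R' b m k) i m) (H b i)
  exact h.trans (mul_le_mul_of_nonneg_right hA (by positivity))

end

end Vale.Agent.P141.H379
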